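import Vale.Agent.P141.H385.Cut2

/-!
# P141, line (S), item (I): blocks
-/

namespace Vale.Agent.P141.H385

open Finset Matrix

noncomputable section

variable {P α Q β L : Type*} [Fintype P] [Fintype α] [Fintype Q] [Fintype β] [Fintype L]

/-- diagonal block -/
def blk (q : Q) (K : Matrix (Q × β) (Q × β) ℝ) : Matrix β β ℝ := fun b b' => K (q, b) (q, b')

/-- block form -/
def ipb (K K' : Matrix (Q × β) (Q × β) ℝ) : ℝ :=
  (Fintype.card Q : ℝ) * ∑ q, ip (blk q K) (blk q K')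

/-- block energy -/
def En (K : Matrix (Q × β) (Q × β) ℝ) : ℝ := (Fintype.card Q : ℝ) * ∑ q, hs (blk q K)

theorem En_eq (K : Matrix (Q × β) (Q × β) ℝ) : En K = ipb K K := by
  simp only [En, ipb, ip_self]

theorem En_nonneg (K : Matrix (Q × β) (Q × β) ℝ) : 0 ≤ En K :=
  mul_nonneg (Nat.cast_nonneg _) (sum_nonneg fun _ _ => hs_nonneg _)

theorem ipb_comm (K K' : Matrix (Q × β) (Q × β) ℝ) : ipb K K' = ipb K' K := by
  unfold ipb
  congr 1
  exact sum_congr rfl fun q _ => ip_comm _ _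

theorem ipb_add_left (K K' N : Matrix (Q × β) (Q × β) ℝ) :
    ipb (K + K') N = ipb K N + ipb K' N := by
  unfold ipb
  rw [← mul_add, ← sum_add_distrib]
  congr 1
  exact sum_congr rfl fun q _ => ip_add_left _ _ _

theorem ipb_smul_left (c : ℝ) (K N : Matrix (Q × β) (Q × β) ℝ) :
    ipb (c • K) N = c * ipb K N := by
  unfold ipb
  have : ∑ q, ip (blk q (c • K)) (blk q N) = c * ∑ q, ip (blk q K) (blk q N) := by
    rw [mul_sum]
    exact sum_congr rfl fun q _ => ip_smul_left c (blk q K) (blk q N)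
  rw [this]
  ring

theorem ipb_add_right (N K K' : Matrix (Q × β) (Q × β) ℝ) :
    ipb N (K + K') = ipb N K + ipb N K' := by
  rw [ipb_comm, ipb_add_left, ipb_comm K, ipb_comm K']

theorem ipb_smul_right (c : ℝ) (N K : Matrix (Q × β) (Q × β) ℝ) :
    ipb N (c • K) = c * ipb N K := by
  rw [ipb_comm, ipb_smul_left, ipb_comm]

theorem ipb_neg_left (K N : Matrix (Q × β) (Q × β) ℝ) : ipb (-K) N = -ipb K N := by
  have := ipb_smul_left (-1) K N
  simpa using this

theorem ipb_sub_left (K K' N : Matrix (Q × β) (Q × β) ℝ) :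
    ipb (K - K') N = ipb K N - ipb K' N := by
  rw [sub_eq_add_neg, ipb_add_left, ipb_neg_left]; ring

theorem ipb_sub_right (N K K' : Matrix (Q × β) (Q × β) ℝ) :
    ipb N (K - K') = ipb N K - ipb N K' := by
  rw [ipb_comm, ipb_sub_left, ipb_comm K, ipb_comm K']

theorem ipb_sum_left (t : Finset P) (K : P → Matrix (Q × β) (Q × β) ℝ)
    (N : Matrix (Q × β) (Q × β) ℝ) : ipb (∑ p ∈ t, K p) N = ∑ p ∈ t, ipb (K p) N := by
  classical
  induction t using Finset.induction_on with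
  | empty =>
    have := ipb_smul_left 0 (0 : Matrix (Q × β) (Q × β) ℝ) N
    simpa using this
  | insert a s ha ih => rw [sum_insert ha, sum_insert ha, ipb_add_left, ih]

/-- the defect form -/
def dd (K K' : Matrix (Q × β) (Q × β) ℝ) : ℝ := ipb K K' - ip K K'

theorem dd_nonneg {K K' : Matrix (Q × β) (Q × β) ℝ} (h : K.PosSemidef) (h' : K'.PosSemidef) :
    0 ≤ dd K K' := by
  classical
  have h1 := qf_sum_le (h.hadamard h') (univ : Finset Q)
    (fun q (y : Q × β) => if y.1 = q then (1 : ℝ) else 0)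
  have h2 : (∑ q : Q, fun (y : Q × β) => if y.1 = q then (1 : ℝ) else 0) = fun _ => 1 := by
    ext y
    rw [Finset.sum_apply, Finset.sum_ite_eq]
    simp
  have h3 : (fun _ => (1 : ℝ)) ⬝ᵥ (K ⊙ K') *ᵥ (fun _ => (1 : ℝ)) = ip K K' := by
    simp [dotProduct, mulVec, ip, hadamard]
  have h4 : ∀ q : Q, (fun (y : Q × β) => if y.1 = q then (1 : ℝ) else 0) ⬝ᵥ
      (K ⊙ K') *ᵥ (fun (y : Q × β) => if y.1 = q then (1 : ℝ) else 0) =
      ip (blk q K) (blk q K') := by
    intro q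
    simp only [dotProduct, mulVec, ip, hadamard_apply, blk, Fintype.sum_prod_type, ite_mul,
      one_mul, zero_mul, mul_ite, mul_one, mul_zero]
    rw [Finset.sum_eq_single q]
    · refine sum_congr rfl fun b _ => ?_
      rw [if_pos rfl, Finset.sum_eq_single q]
      · refine sum_congr rfl fun b' _ => ?_
        rw [if_pos rfl]
      · intro q' _ hq'
        refine sum_eq_zero fun b' _ => ?_
        rw [if_neg hq']
      · intro hq; exact absurd (mem_univ q) hq
    · intro q' _ hq'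
      refine sum_eq_zero fun b _ => ?_
      rw [if_neg hq']
    · intro hq; exact absurd (mem_univ q) hq
  rw [h2, h3] at h1
  simp only [h4] at h1
  unfold dd ipb
  rw [Finset.card_univ] at h1
  linarith

theorem hs_le_En {K : Matrix (Q × β) (Q × β) ℝ} (h : K.PosSemidef) : hs K ≤ En K := by
  have := dd_nonneg h h
  rw [dd, ← En_eq, ip_self] at this
  linarith

theorem En_eq_dd (K : Matrix (Q × β) (Q × β) ℝ) : En K = hs K + dd K K := by
  rw [dd, ← En_eq, ip_self]; ring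

theorem dd_mono {K K' : Matrix (Q × β) (Q × β) ℝ} {c : ℝ} (hc : 0 ≤ c) (h : K.PosSemidef)
    (h' : K'.PosSemidef) (hK : (c • K' - K).PosSemidef) : dd K K ≤ c ^ 2 * dd K' K' := by
  have h1 := dd_nonneg hK h
  have h2 := dd_nonneg hK h'
  unfold dd at h1 h2 ⊢
  rw [ipb_sub_left, ip_sub_left, ipb_smul_left, ip_smul_left] at h1 h2
  have h3 : ipb K' K = ipb K K' := ipb_comm _ _
  have h4 : ip K' K = ip K K' := ip_comm _ _
  rw [h3, h4] at h1
  have h5 := mul_le_mul_of_nonneg_left (a := c)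
    (show ipb K K' - ip K K' ≤ c * ipb K' K' - c * ip K' K' by linarith) hc
  nlinarith

theorem blk_psd {K : Matrix (Q × β) (Q × β) ℝ} (h : K.PosSemidef) (q : Q) :
    (blk q K).PosSemidef :=
  h.submatrix (fun b : β => (q, b))

theorem En_mono {K K' : Matrix (Q × β) (Q × β) ℝ} (h : K.PosSemidef)
    (h' : (K' - K).PosSemidef) : En K ≤ En K' := by
  unfold En
  refine mul_le_mul_of_nonneg_left ?_ (Nat.cast_nonneg _)
  refine sum_le_sum fun q _ => hs_mono (blk_psd h q) ?_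
  exact blk_psd h' q

theorem En_sub (K K' : Matrix (Q × β) (Q × β) ℝ) :
    En (K - K') = En K - 2 * ipb K K' + En K' := by
  rw [En_eq, En_eq, En_eq, ipb_sub_left, ipb_sub_right, ipb_sub_right, ipb_comm K' K]
  ring

theorem En_add (K K' : Matrix (Q × β) (Q × β) ℝ) :
    En (K + K') = En K + 2 * ipb K K' + En K' := by
  rw [En_eq, En_eq, En_eq, ipb_add_left, ipb_add_right, ipb_add_right, ipb_comm K' K]
  ring

theorem En_smul (c : ℝ) (K : Matrix (Q × β) (Q × β) ℝ) : En (c • K) = c ^ 2 * En K := by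
  rw [En_eq, En_eq, ipb_smul_left, ipb_smul_right]
  ring

theorem En_quad (c : ℝ) (K0 K1 K2 : Matrix (Q × β) (Q × β) ℝ) :
    En (K0 + c • K1 + c ^ 2 • K2) = En K0 + 2 * c * ipb K0 K1 +
      c ^ 2 * (2 * ipb K0 K2 + En K1) + 2 * c ^ 3 * ipb K1 K2 + c ^ 4 * En K2 := by
  rw [En_add, En_add, En_smul, En_smul, ipb_add_left, ipb_smul_left, ipb_smul_right,
    ipb_smul_right, ipb_smul_right]
  ring

theorem En_four (K0 K1 K2 : Matrix (Q × β) (Q × β) ℝ) :
    24 / 256 * En K2 = En (K0 + (0 : ℝ) • K1 + (0 : ℝ) ^ 2 • K2) -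
      4 * En (K0 + (1 / 4 : ℝ) • K1 + (1 / 4 : ℝ) ^ 2 • K2) +
      6 * En (K0 + (1 / 2 : ℝ) • K1 + (1 / 2 : ℝ) ^ 2 • K2) -
      4 * En (K0 + (3 / 4 : ℝ) • K1 + (3 / 4 : ℝ) ^ 2 • K2) +
      En (K0 + (1 : ℝ) • K1 + (1 : ℝ) ^ 2 • K2) := by
  simp only [En_quad]
  ring

/-! ### families -/

/-- number of cells -/
abbrev cn (P : Type*) [Fintype P] : ℝ := (Fintype.card P : ℝ)

/-- Gram matrix of a cell (normalised) -/
def gr (M : P → Matrix α (Q × β) ℝ) (p : P) : Matrix (Q × β) (Q × β) ℝ :=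
  cn P • ((M p)ᵀ * M p)

/-- top Gram matrix -/
def xt (M : P → Matrix α (Q × β) ℝ) : Matrix (Q × β) (Q × β) ℝ := ∑ p, (M p)ᵀ * M p

/-- the fourth powers on the cells -/
def phiE (M : P → Matrix α (Q × β) ℝ) : ℝ := (cn P)⁻¹ * ∑ p, En (gr M p)

/-- the fourth power at the top -/
def phiT (M : P → Matrix α (Q × β) ℝ) : ℝ := hs (xt M)

theorem gr_psd (M : P → Matrix α (Q × β) ℝ) (p : P) : (gr M p).PosSemidef :=
  psd_smul (psd_sq _) (Nat.cast_nonneg _)

theorem xt_psd (M : P → Matrix α (Q × β) ℝ) : (xt M).PosSemidef :=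
  Matrix.posSemidef_sum _ fun _ _ => psd_sq _

theorem sum_gr (M : P → Matrix α (Q × β) ℝ) : ∑ p, gr M p = cn P • xt M := by
  simp only [gr, xt, smul_sum]

theorem cn_inv_mul [Nonempty P] (x : ℝ) : (cn P)⁻¹ * (cn P * x) = x := by
  have : cn P ≠ 0 := by
    have := Fintype.card_pos (α := P)
    positivity
  field_simp

theorem var_ip (M : P → Matrix α (Q × β) ℝ) :
    ∑ p, hs (gr M p - xt M) = ∑ p, hs (gr M p) - cn P * phiT M := by
  have h1 : ∑ p, ip (gr M p) (xt M) = cn P * phiT M := by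
    rw [← ip_sum_left, sum_gr, ip_smul_left, ip_self]; rfl
  simp only [hs_sub, sum_add_distrib, sum_sub_distrib, ← mul_sum, h1, sum_const, nsmul_eq_mul,
    Finset.card_univ]
  unfold phiT cn
  ring

theorem var_En (M : P → Matrix α (Q × β) ℝ) :
    ∑ p, En (gr M p - xt M) = ∑ p, En (gr M p) - cn P * En (xt M) := by
  have h1 : ∑ p, ipb (gr M p) (xt M) = cn P * En (xt M) := by
    rw [← ipb_sum_left, sum_gr, ipb_smul_left, En_eq]
  simp only [En_sub, sum_add_distrib, sum_sub_distrib, ← mul_sum, h1, sum_const, nsmul_eq_mul,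
    Finset.card_univ]
  unfold cn
  ring

/-- the variance is at most the gain -/
theorem var_le [Nonempty P] (M : P → Matrix α (Q × β) ℝ) :
    (cn P)⁻¹ * ∑ p, hs (gr M p - xt M) ≤ phiE M - phiT M := by
  rw [var_ip, mul_sub, cn_inv_mul]
  unfold phiE
  have : ∑ p, hs (gr M p) ≤ ∑ p, En (gr M p) := sum_le_sum fun p _ => hs_le_En (gr_psd M p)
  have h2 := mul_le_mul_of_nonneg_left this (a := (cn P)⁻¹) (by positivity)
  linarith

/-- the defect of the top Gram matrix is at most the gain -/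
theorem dd_xt_le [Nonempty P] (M : P → Matrix α (Q × β) ℝ) :
    dd (xt M) (xt M) ≤ phiE M - phiT M := by
  have h1 : 0 ≤ ∑ p, En (gr M p - xt M) := sum_nonneg fun _ _ => En_nonneg _
  rw [var_En] at h1
  have h2 := mul_nonneg (a := (cn P)⁻¹) (by positivity) h1
  rw [mul_sub, cn_inv_mul] at h2
  have h3 := En_eq_dd (xt M)
  unfold phiE phiT
  linarith

theorem gam_nonneg [Nonempty P] (M : P → Matrix α (Q × β) ℝ) : 0 ≤ phiE M - phiT M :=
  le_trans (mul_nonneg (by positivity) (sum_nonneg fun _ _ => hs_nonneg _)) (var_le M)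

end

end Vale.Agent.P141.H385
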