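import Vale.Agent.P141.H385.Core

/-!
# P141, line (S), item (I): the lossless static cut of one kernel

`M p : α × (Q × β)` are the cells (`p` = cell of the first variable, `q` = cell of the second one)
of one kernel; `phiT M` is the fourth Schatten power of the whole kernel and `phiE M` the mean
(times the normalising numbers of cells) of the fourth Schatten powers on the cells `(p, q)`.
The part of `M` below the level `θ`, together with the part of the labels which is not spread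
over the cells `p`, is cut out: what is left (`∑ l, s l • al l ⊗ be l`) has labels `al` whose
Gram matrices on the cells `p` are at most `n`, and the price of the cut on the cells `(p, q)` is
`43 (θ |M|² + (577 + n²) (phiE M - phiT M))`.
-/

namespace Vale.Agent.P141.H385

open Finset Matrix

noncomputable section

/-! ### spectral theorem -/

theorem exists_diag {Y : Type*} [Fintype Y] [DecidableEq Y] {X : Matrix Y Y ℝ}
    (hX : X.PosSemidef) : ∃ (W : Matrix Y Y ℝ) (lam : Y → ℝ),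
      Wᵀ * W = 1 ∧ (∀ y, 0 ≤ lam y) ∧ X = W * diagonal lam * Wᵀ := by
  have h := hX.isHermitian
  refine ⟨(h.eigenvectorUnitary : Matrix Y Y ℝ), h.eigenvalues, ?_, hX.eigenvalues_nonneg, ?_⟩
  · have h1 := (Matrix.mem_unitaryGroup_iff' (A := (h.eigenvectorUnitary : Matrix Y Y ℝ))).1
      h.eigenvectorUnitary.2
    rwa [star_eq_conjTranspose, conjTranspose_eq_transpose_of_trivial] at h1
  · have h1 := h.spectral_theorem
    rw [Unitary.conjStarAlgAut_apply, star_eq_conjTranspose,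
      conjTranspose_eq_transpose_of_trivial] at h1
    exact h1

theorem hs_diagonal {Y : Type*} [Fintype Y] [DecidableEq Y] (f : Y → ℝ) :
    hs (diagonal f) = ∑ y, f y ^ 2 := by
  unfold hs
  refine sum_congr rfl fun l _ => ?_
  rw [Finset.sum_eq_single l]
  · rw [diagonal_apply_eq]
  · intro j _ hj
    rw [diagonal_apply_ne _ hj.symm]; ring
  · intro hl; exact absurd (mem_univ l) hl

theorem trace_conj {Y : Type*} [Fintype Y] [DecidableEq Y] {W : Matrix Y Y ℝ} (h : Wᵀ * W = 1)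
    (f : Y → ℝ) : ∑ y, (W * diagonal f * Wᵀ) y y = ∑ y, f y := by
  have h1 : (W * diagonal f * Wᵀ).trace = (diagonal f).trace := by
    rw [Matrix.trace_mul_comm, ← Matrix.mul_assoc, h, Matrix.one_mul]
  simpa [Matrix.trace] using h1

/-- dyadic classes -/
theorem exists_cls {L : Type*} [Fintype L] [DecidableEq L] {θ : ℝ} (hθ : 0 < θ) {n : ℕ}
    (s : L → ℝ) (hs0 : ∀ l, 0 < s l) (h1 : ∀ l, θ ≤ s l ^ 2) (h2 : ∀ l, s l ^ 2 < 4 ^ n * θ) :
    ∃ ρ : L → ℝ, Cls s ρ n := by
  classical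
  set k : L → ℕ := fun l => Nat.log 4 ⌊s l ^ 2 / θ⌋₊ with hk
  have hx : ∀ l, 1 ≤ s l ^ 2 / θ := fun l => (one_le_div hθ).2 (h1 l)
  have hf : ∀ l, 1 ≤ ⌊s l ^ 2 / θ⌋₊ := fun l => (Nat.one_le_floor_iff _).2 (hx l)
  have ha : ∀ l, (4 : ℝ) ^ k l ≤ s l ^ 2 / θ := by
    intro l
    have h3 : 4 ^ k l ≤ ⌊s l ^ 2 / θ⌋₊ := Nat.pow_log_le_self 4 (by have := hf l; omega)
    have h4 : ((4 ^ k l : ℕ) : ℝ) ≤ s l ^ 2 / θ :=
      le_trans (by exact_mod_cast h3) (Nat.floor_le (by have := hx l; linarith))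
    simpa using h4
  have hb : ∀ l, s l ^ 2 / θ < (4 : ℝ) ^ (k l + 1) := by
    intro l
    have h3 : ⌊s l ^ 2 / θ⌋₊ < 4 ^ (k l + 1) := Nat.lt_pow_succ_log_self (by norm_num) _
    have h4 : s l ^ 2 / θ < ⌊s l ^ 2 / θ⌋₊ + 1 := Nat.lt_floor_add_one _
    have h5 : ((⌊s l ^ 2 / θ⌋₊ + 1 : ℕ) : ℝ) ≤ ((4 ^ (k l + 1) : ℕ) : ℝ) := by exact_mod_cast h3
    push_cast at h5
    linarith
  have hkn : ∀ l, k l < n := by
    intro l
    have h3 : s l ^ 2 / θ < 4 ^ n := by
      rw [div_lt_iff₀ hθ]; exact h2 l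
    have h4 : (4 : ℝ) ^ k l < 4 ^ n := lt_of_le_of_lt (ha l) h3
    exact (pow_lt_pow_iff_right₀ (by norm_num)).1 h4
  have hr : ∀ l, (Real.sqrt θ * 2 ^ k l) ^ 2 = θ * 4 ^ k l := by
    intro l
    rw [mul_pow, Real.sq_sqrt hθ.le, ← pow_mul, mul_comm (k l) 2, pow_mul]
    norm_num
  refine ⟨fun l => Real.sqrt θ * 2 ^ k l, ⟨fun l => by positivity, fun l => ?_, fun l => ?_, ?_⟩⟩
  · refine le_of_sq_le_sq ?_ (hs0 l).le
    rw [hr]
    have := (le_div_iff₀ hθ).1 (ha l)
    linarith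
  · refine le_of_sq_le_sq ?_ (by positivity)
    have h3 := (div_lt_iff₀ hθ).1 (hb l)
    have h4 : (2 * (Real.sqrt θ * 2 ^ k l)) ^ 2 = 4 * (θ * 4 ^ k l) := by
      rw [← hr]; ring
    rw [h4]
    have h5 : (4 : ℝ) ^ (k l + 1) = 4 ^ k l * 4 := pow_succ 4 (k l)
    rw [h5] at h3
    linarith
  · have h3 : univ.image (fun l => Real.sqrt θ * 2 ^ k l) ⊆
        (range n).image (fun j => Real.sqrt θ * 2 ^ j) := by
      intro x hx
      obtain ⟨l, _, rfl⟩ := mem_image.1 hx
      exact mem_image.2 ⟨k l, mem_range.2 (hkn l), rfl⟩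
    refine (card_le_card h3).trans (card_image_le.trans ?_)
    rw [card_range]

variable {P α Q β : Type*} [Fintype P] [Fintype α] [Fintype Q] [Fintype β] [DecidableEq Q]
  [DecidableEq β]

/-- total energy -/
def tot (M : P → Matrix α (Q × β) ℝ) : ℝ := ∑ p, hs (M p)

theorem tot_eq (M : P → Matrix α (Q × β) ℝ) : tot M = ∑ y, xt M y y := by
  unfold tot xt
  simp only [hs_eq_trace, Matrix.sum_apply]
  exact sum_comm

/-- **(I)** -/
theorem coh [Nonempty P] (M : P → Matrix α (Q × β) ℝ) {θ : ℝ} (hθ : 0 < θ) {n : ℕ}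
    (hn : tot M < 4 ^ n * θ) :
    ∃ (L : Finset (Q × β)) (V : Matrix (Q × β) L ℝ) (s : L → ℝ) (a : P → Matrix α L ℝ),
      (∀ l l', ∑ y, V y l * V y l' = if l = l' then 1 else 0) ∧
      (∀ l, 0 < s l) ∧ (∀ l, θ ≤ s l ^ 2) ∧ (∀ l, s l ^ 2 ≤ tot M) ∧
      ∑ l, s l ^ 4 ≤ phiT M ∧ ∑ l, s l ^ 2 ≤ tot M ∧ (L.card : ℝ) * θ ≤ tot M ∧
      (∀ y l, ∑ y', xt M y y' * V y' l = s l ^ 2 * V y l) ∧
      (∀ p (z : L → ℝ), cn P * ∑ x, (∑ l, a p x l * z l) ^ 2 ≤ n * ∑ l, z l ^ 2) ∧
      (∀ p, ((n : ℝ) • xt M - cn P • ((a p * diagonal s * Vᵀ)ᵀ *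
        (a p * diagonal s * Vᵀ))).PosSemidef) ∧
      phiE (fun p => M p - a p * diagonal s * Vᵀ) ≤
        43 * (θ * tot M + (577 + (n : ℝ) ^ 2) * (phiE M - phiT M)) := by
  obtain ⟨W, lam, hW, hlam, hX⟩ := exists_diag (xt_psd M)
  have htot : tot M = ∑ y, lam y := by rw [tot_eq, hX, trace_conj hW]
  have hhs : phiT M = ∑ y, lam y ^ 2 := by
    unfold phiT
    rw [hX, hs_iso hW, hs_diagonal]
  set L : Finset (Q × β) := univ.filter fun y => θ ≤ lam y with hL
  have hLl : ∀ l : L, θ ≤ lam l.1 := fun l => (mem_filter.1 l.2).2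
  have hsum : ∀ f : Q × β → ℝ, ∑ l : L, f l.1 = ∑ y, if θ ≤ lam y then f y else 0 := by
    intro f
    rw [Finset.sum_coe_sort L f, hL, sum_filter]
  set V : Matrix (Q × β) L ℝ := fun y l => W y l.1 with hV
  set s : L → ℝ := fun l => Real.sqrt (lam l.1) with hs
  have hs2 : ∀ l, s l ^ 2 = lam l.1 := fun l => Real.sq_sqrt (hlam _)
  have hspos : ∀ l, 0 < s l := fun l => Real.sqrt_pos.2 (lt_of_lt_of_le hθ (hLl l))
  have hiso : Vᵀ * V = 1 := by
    ext l l'
    have h1 := congrFun (congrFun hW l.1) l'.1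
    rw [Matrix.mul_apply] at h1 ⊢
    simp only [Matrix.transpose_apply] at h1 ⊢
    rw [h1]
    by_cases hll : l = l'
    · rw [hll, Matrix.one_apply_eq, Matrix.one_apply_eq]
    · rw [Matrix.one_apply_ne hll, Matrix.one_apply_ne (fun h => hll (Subtype.ext h))]
  have hXW : xt M * W = W * diagonal lam := by
    rw [hX, Matrix.mul_assoc, hW, Matrix.mul_one]
  have heig : xt M * V = V * diagonal (fun l => s l ^ 2) := by
    ext y l
    have h1 := congrFun (congrFun hXW y) l.1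
    rw [Matrix.mul_diagonal] at h1
    rw [Matrix.mul_diagonal, hs2]
    rw [← h1]
    rfl
  have hlow : xt M - V * diagonal (fun l => s l ^ 2) * Vᵀ =
      W * diagonal (fun y => if θ ≤ lam y then 0 else lam y) * Wᵀ := by
    rw [hX]
    ext i j
    rw [Matrix.sub_apply, Matrix.mul_apply, Matrix.mul_apply, Matrix.mul_apply]
    simp only [Matrix.mul_diagonal, Matrix.transpose_apply, hs2]
    rw [hsum (fun y => W i y * lam y * W j y), ← sum_sub_distrib]
    refine sum_congr rfl fun y _ => ?_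
    by_cases hy : θ ≤ lam y
    · rw [if_pos hy, if_pos hy]; ring
    · rw [if_neg hy, if_neg hy]; ring
  have hsing : Sing M V s := by
    refine ⟨hiso, heig, ?_, hspos⟩
    rw [hlow]
    have h1 : (diagonal (fun y => if θ ≤ lam y then 0 else lam y) :
        Matrix (Q × β) (Q × β) ℝ).PosSemidef := by
      rw [Matrix.posSemidef_diagonal_iff]
      intro y
      by_cases hy : θ ≤ lam y
      · rw [if_pos hy]
      · rw [if_neg hy]; exact hlam y
    have h2 := psd_conj h1 Wᵀ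
    rwa [transpose_transpose] at h2
  have hle : ∀ y, lam y ≤ tot M := fun y => by
    rw [htot]; exact single_le_sum (fun y _ => hlam y) (mem_univ y)
  have hsle : ∑ l : L, s l ^ 2 ≤ tot M := by
    simp only [hs2]
    rw [hsum lam, htot]
    refine sum_le_sum fun y _ => ?_
    by_cases hy : θ ≤ lam y
    · rw [if_pos hy]
    · rw [if_neg hy]; exact hlam y
  have hs4 : ∑ l : L, s l ^ 4 = ∑ y, if θ ≤ lam y then lam y ^ 2 else 0 := by
    rw [← hsum (fun y => lam y ^ 2)]
    refine sum_congr rfl fun l _ => ?_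
    rw [← hs2]; ring
  obtain ⟨ρ, hρ⟩ := exists_cls hθ (n := n) s hspos (fun l => by rw [hs2]; exact hLl l)
    (fun l => by rw [hs2]; exact lt_of_le_of_lt (hle _) hn)
  refine ⟨L, V, s, al M V s ρ, ?_, hspos, fun l => by rw [hs2]; exact hLl l,
    fun l => by rw [hs2]; exact hle _, ?_, hsle, ?_, ?_, ?_, fun p => mhi_le hsing hρ p, ?_⟩
  · intro l l'
    have h1 := congrFun (congrFun hiso l) l'
    rw [Matrix.mul_apply] at h1
    simp only [Matrix.transpose_apply] at h1
    rw [h1, Matrix.one_apply]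
  · rw [hs4, hhs]
    refine sum_le_sum fun y _ => ?_
    by_cases hy : θ ≤ lam y
    · rw [if_pos hy]
    · rw [if_neg hy]; positivity
  · refine le_trans ?_ hsle
    have h1 : ∑ l : L, θ ≤ ∑ l : L, s l ^ 2 := sum_le_sum fun l _ => by rw [hs2]; exact hLl l
    rw [sum_const, nsmul_eq_mul, Finset.card_univ, Fintype.card_coe] at h1
    exact h1
  · intro y l
    have h1 := congrFun (congrFun heig y) l
    rw [Matrix.mul_apply, Matrix.mul_diagonal] at h1
    rw [h1, mul_comm]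
  · intro p z
    have h1 := qf_nonneg (al_le (M := M) (V := V) hρ p) z
    rw [sub_mulVec, dotProduct_sub, smul_mulVec, one_mulVec, dotProduct_smul, smul_mulVec,
      dotProduct_smul, ← mulVec_mulVec, dotProduct_mulVec, vecMul_transpose] at h1
    simp only [dotProduct, mulVec, smul_eq_mul, ← sq] at h1
    linarith
  · refine (core hsing hρ).trans ?_
    have h1 : phiT M - ∑ l : L, s l ^ 4 ≤ θ * tot M := by
      rw [hs4, hhs, ← sum_sub_distrib, htot, mul_sum]
      refine sum_le_sum fun y _ => ?_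
      by_cases hy : θ ≤ lam y
      · rw [if_pos hy, sub_self]; exact mul_nonneg hθ.le (hlam y)
      · rw [if_neg hy, sub_zero, sq]
        exact mul_le_mul_of_nonneg_right (not_le.1 hy).le (hlam y)
    have h2 := gam_nonneg M
    have h3 : 0 ≤ (577 + (n : ℝ) ^ 2) * (phiE M - phiT M) := by positivity
    have h4 : 0 ≤ tot M := by rw [htot]; exact sum_nonneg fun y _ => hlam y
    have h5 : 0 ≤ θ * tot M := mul_nonneg hθ.le h4
    nlinarith

end

end Vale.Agent.P141.H385
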