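import Vale.Agent.P141.H385.Blk

/-!
# P141, line (S), item (I): the cut of a family, given the top singular vectors
-/

namespace Vale.Agent.P141.H385

open Finset Matrix

noncomputable section

variable {P α Q β L : Type*} [Fintype P] [Fintype α] [Fintype Q] [Fintype β] [Fintype L]
  [DecidableEq L]

/-- top singular vectors -/
structure Sing (M : P → Matrix α (Q × β) ℝ) (V : Matrix (Q × β) L ℝ) (s : L → ℝ) : Prop where
  iso : Vᵀ * V = 1
  eig : xt M * V = V * diagonal (fun l => s l ^ 2)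
  low : (xt M - V * diagonal (fun l => s l ^ 2) * Vᵀ).PosSemidef
  pos : ∀ l, 0 < s l

/-- classes -/
structure Cls (s ρ : L → ℝ) (n : ℕ) : Prop where
  nn : ∀ l, 0 ≤ ρ l
  lo : ∀ l, ρ l ≤ s l
  hi : ∀ l, s l ≤ 2 * ρ l
  card : (univ.image ρ).card ≤ n

/-- left singular vectors on the cells -/
def ul (M : P → Matrix α (Q × β) ℝ) (V : Matrix (Q × β) L ℝ) (s : L → ℝ) (p : P) :
    Matrix α L ℝ := M p * V * diagonal (fun l => (s l)⁻¹)

/-- their Gram matrices -/
def gg (M : P → Matrix α (Q × β) ℝ) (V : Matrix (Q × β) L ℝ) (s : L → ℝ) (p : P) :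
    Matrix L L ℝ := cn P • ((ul M V s p)ᵀ * ul M V s p)

/-- the resolvent of the class-diagonal part -/
def hh (M : P → Matrix α (Q × β) ℝ) (V : Matrix (Q × β) L ℝ) (s ρ : L → ℝ) (p : P) :
    Matrix L L ℝ := (1 + bd ρ (gg M V s p))⁻¹

/-- the cut labels -/
def al (M : P → Matrix α (Q × β) ℝ) (V : Matrix (Q × β) L ℝ) (s ρ : L → ℝ) (p : P) :
    Matrix α L ℝ := ul M V s p * ((2 : ℝ) • hh M V s ρ p)

/-- the high part -/
def mhi (M : P → Matrix α (Q × β) ℝ) (V : Matrix (Q × β) L ℝ) (s ρ : L → ℝ) (p : P) :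
    Matrix α (Q × β) ℝ := al M V s ρ p * diagonal s * Vᵀ

section

variable {M : P → Matrix α (Q × β) ℝ} {V : Matrix (Q × β) L ℝ} {s ρ : L → ℝ} {n : ℕ}

theorem diag_inv (h : ∀ l, 0 < s l) :
    diagonal (fun l => (s l)⁻¹) * diagonal s = (1 : Matrix L L ℝ) := by
  rw [Matrix.diagonal_mul_diagonal, ← Matrix.diagonal_one]
  congr 1
  ext l
  exact inv_mul_cancel₀ (h l).ne'

theorem diag_inv' (h : ∀ l, 0 < s l) :
    diagonal s * diagonal (fun l => (s l)⁻¹) = (1 : Matrix L L ℝ) := by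
  rw [Matrix.diagonal_mul_diagonal, ← Matrix.diagonal_one]
  congr 1
  ext l
  exact mul_inv_cancel₀ (h l).ne'

theorem ul_S (h : ∀ l, 0 < s l) (p : P) : ul M V s p * diagonal s = M p * V := by
  rw [ul, Matrix.mul_assoc, diag_inv h, Matrix.mul_one]

theorem diag_sq : diagonal (fun l => s l ^ 2) = diagonal s * diagonal s := by
  rw [Matrix.diagonal_mul_diagonal]
  congr 1
  ext l
  ring

theorem sum_ul (h : Sing M V s) : ∑ p, (ul M V s p)ᵀ * ul M V s p = 1 := by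
  have h1 : ∀ p, (ul M V s p)ᵀ * ul M V s p =
      diagonal (fun l => (s l)⁻¹) * (Vᵀ * ((M p)ᵀ * M p) * V) * diagonal (fun l => (s l)⁻¹) := by
    intro p
    unfold ul
    rw [transpose_mul, transpose_mul, diagonal_transpose]
    simp only [Matrix.mul_assoc]
  simp only [h1]
  rw [← Matrix.sum_mul, ← Matrix.mul_sum, ← Matrix.sum_mul, ← Matrix.mul_sum]
  have h2 : ∑ p, (M p)ᵀ * M p = xt M := rfl
  rw [h2, Matrix.mul_assoc Vᵀ, h.eig, ← Matrix.mul_assoc Vᵀ, h.iso, Matrix.one_mul, diag_sq,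
    ← Matrix.mul_assoc, diag_inv h.pos, Matrix.one_mul, diag_inv' h.pos]

theorem sum_gg (h : Sing M V s) : ∑ p, gg M V s p = cn P • (1 : Matrix L L ℝ) := by
  simp only [gg, ← smul_sum, sum_ul h]

theorem sc_gg (h : ∀ l, 0 < s l) (p : P) : sc s (gg M V s p) = Vᵀ * gr M p * V := by
  unfold sc gg gr
  have h1 : diagonal s * (ul M V s p)ᵀ = (M p * V)ᵀ := by
    rw [← ul_S h p, transpose_mul, diagonal_transpose]
  rw [Matrix.mul_smul, Matrix.smul_mul, Matrix.mul_smul, Matrix.smul_mul, ← Matrix.mul_assoc,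
    h1, Matrix.mul_assoc _ (ul M V s p), ul_S h p, transpose_mul]
  simp only [Matrix.mul_assoc]

theorem sc_one (h : Sing M V s) : sc s 1 = Vᵀ * xt M * V := by
  rw [Matrix.mul_assoc, h.eig, ← Matrix.mul_assoc, h.iso, Matrix.one_mul, diag_sq, sc,
    Matrix.mul_one]

theorem one_sub_VV [DecidableEq Q] [DecidableEq β] (h : Vᵀ * V = 1) :
    ((1 : ℝ) • (1 : Matrix (Q × β) (Q × β) ℝ) - V * Vᵀ).PosSemidef := by
  have h1 := psd_sq (1 - V * Vᵀ)
  have h2 : (1 - V * Vᵀ)ᵀ * (1 - V * Vᵀ) =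
      (1 : ℝ) • (1 : Matrix (Q × β) (Q × β) ℝ) - V * Vᵀ := by
    rw [transpose_sub, transpose_one, transpose_mul, transpose_transpose, one_smul,
      Matrix.sub_mul, Matrix.one_mul, Matrix.mul_sub, Matrix.mul_one, Matrix.mul_assoc V Vᵀ,
      ← Matrix.mul_assoc Vᵀ V, h, Matrix.one_mul, sub_self, sub_zero]
  rwa [h2] at h1

theorem hs_VV_le (h : Vᵀ * V = 1) (Z : Matrix (Q × β) (Q × β) ℝ) :
    hs (Vᵀ * Z * V) ≤ hs Z := by
  classical
  have h1 := one_sub_VV h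
  have h2 := hs_mul_le' h1 (Vᵀ * Z)
  have h3 : ((1 : ℝ) • (1 : Matrix (Q × β) (Q × β) ℝ) - (Vᵀ)ᵀ * Vᵀ).PosSemidef := by
    rwa [transpose_transpose]
  have h4 := hs_mul_le h3 Z
  linarith

theorem hs_sc_gg (h : Sing M V s) (p : P) :
    hs (sc s (gg M V s p - 1)) ≤ hs (gr M p - xt M) := by
  have h1 : sc s (gg M V s p - 1) = Vᵀ * (gr M p - xt M) * V := by
    rw [sc_sub, sc_gg h.pos, sc_one h, Matrix.mul_sub, Matrix.sub_mul]
  rw [h1]
  exact hs_VV_le h.iso _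

theorem gg_psd (p : P) : (gg M V s p).PosSemidef :=
  psd_smul (psd_sq _) (Nat.cast_nonneg _)

theorem hh_rsv (p : P) : Rsv (bd ρ (gg M V s p)) (hh M V s ρ p) :=
  rsv_inv (bd_psd ρ (gg_psd p))

theorem C_symm (p : P) : ((2 : ℝ) • hh M V s ρ p)ᵀ = (2 : ℝ) • hh M V s ρ p := by
  rw [transpose_smul, (hh_rsv p).symm]

theorem al_gram (p : P) : cn P • ((al M V s ρ p)ᵀ * al M V s ρ p) =
    (2 : ℝ) • hh M V s ρ p * gg M V s p * ((2 : ℝ) • hh M V s ρ p) := by
  have hC := C_symm (M := M) (V := V) (s := s) (ρ := ρ) p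
  unfold al gg
  generalize (2 : ℝ) • hh M V s ρ p = C at hC ⊢
  rw [transpose_mul, hC, Matrix.mul_smul, Matrix.smul_mul]
  simp only [Matrix.mul_assoc]

/-- the cut labels have potentials at most `n` -/
theorem al_le (hc : Cls s ρ n) (p : P) :
    ((n : ℝ) • (1 : Matrix L L ℝ) - cn P • ((al M V s ρ p)ᵀ * al M V s ρ p)).PosSemidef := by
  rw [al_gram]
  exact cut_le (gg_psd p) hc.card (hh_rsv p)

theorem gr_mhi (p : P) : gr (mhi M V s ρ) p =
    V * sc s ((2 : ℝ) • hh M V s ρ p * gg M V s p * ((2 : ℝ) • hh M V s ρ p)) * Vᵀ := by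
  rw [← al_gram]
  unfold gr mhi sc
  rw [transpose_mul, transpose_mul, transpose_transpose, diagonal_transpose, Matrix.mul_smul,
    Matrix.smul_mul, Matrix.mul_smul, Matrix.smul_mul]
  simp only [Matrix.mul_assoc]

theorem mhi_le (h : Sing M V s) (hc : Cls s ρ n) (p : P) :
    ((n : ℝ) • xt M - gr (mhi M V s ρ) p).PosSemidef := by
  have h1 := psd_smul h.low (Nat.cast_nonneg (α := ℝ) n)
  have h2 := psd_conj (al_le (M := M) (V := V) hc p) (diagonal s * Vᵀ)
  have h3 : (n : ℝ) • xt M - gr (mhi M V s ρ) p =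
      (n : ℝ) • (xt M - V * diagonal (fun l => s l ^ 2) * Vᵀ) +
      (diagonal s * Vᵀ)ᵀ * ((n : ℝ) • (1 : Matrix L L ℝ) -
        cn P • ((al M V s ρ p)ᵀ * al M V s ρ p)) * (diagonal s * Vᵀ) := by
    rw [gr_mhi, al_gram, transpose_mul, transpose_transpose, diagonal_transpose, diag_sq]
    generalize (2 : ℝ) • hh M V s ρ p * gg M V s p * ((2 : ℝ) • hh M V s ρ p) = T
    unfold sc
    rw [Matrix.mul_sub, Matrix.sub_mul, Matrix.mul_smul, Matrix.mul_one, Matrix.smul_mul,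
      smul_sub]
    simp only [Matrix.mul_assoc]
    abel
  rw [h3]
  exact h1.add h2

theorem hs_diag_add (Z : Matrix L L ℝ) : hs (sc s 1 + sc s Z) =
    ∑ l, s l ^ 4 + 2 * ∑ l, s l ^ 4 * Z l l + hs (sc s Z) := by
  rw [hs_add]
  have h1 : sc s 1 = diagonal (fun l => s l ^ 2) := by rw [diag_sq, sc, Matrix.mul_one]
  have h2 : hs (sc s 1) = ∑ l, s l ^ 4 := by
    rw [h1]
    unfold hs
    refine sum_congr rfl fun l _ => ?_
    rw [Finset.sum_eq_single l]
    · rw [diagonal_apply_eq]; ring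
    · intro j _ hj
      rw [diagonal_apply_ne _ hj.symm]; ring
    · intro hl; exact absurd (mem_univ l) hl
  have h3 : ip (sc s 1) (sc s Z) = ∑ l, s l ^ 4 * Z l l := by
    rw [h1]
    unfold ip
    refine sum_congr rfl fun l _ => ?_
    rw [Finset.sum_eq_single l]
    · rw [diagonal_apply_eq, sc_apply]; ring
    · intro j _ hj
      rw [diagonal_apply_ne _ hj.symm]; ring
    · intro hl; exact absurd (mem_univ l) hl
  rw [h2, h3]

theorem hs_mhi (h : Sing M V s) (hc : Cls s ρ n) (p : P) :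
    hs (gr (mhi M V s ρ) p) ≤ ∑ l, s l ^ 4 + 512 * hs (gr M p - xt M) := by
  rw [gr_mhi, hs_iso h.iso]
  have h1 := hs_diag_add (s := s)
    ((2 : ℝ) • hh M V s ρ p * gg M V s p * ((2 : ℝ) • hh M V s ρ p) - 1)
  have h2 : sc s 1 + sc s ((2 : ℝ) • hh M V s ρ p * gg M V s p * ((2 : ℝ) • hh M V s ρ p) - 1) =
      sc s ((2 : ℝ) • hh M V s ρ p * gg M V s p * ((2 : ℝ) • hh M V s ρ p)) := by
    rw [sc_sub]; abel
  rw [h2] at h1
  rw [h1]
  have h3 := diag_cut_le (s := s) (hh_rsv (M := M) (V := V) (s := s) (ρ := ρ) p)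
  have h4 := hs_cut_le (gg_psd (M := M) (V := V) (s := s) p) hc.nn hc.lo hc.hi (hh_rsv p)
  have h5 := hs_sc_gg h p
  linarith

theorem phiE_mhi [Nonempty P] (h : Sing M V s) (hc : Cls s ρ n) :
    phiE (mhi M V s ρ) ≤ ∑ l, s l ^ 4 + (512 + (n : ℝ) ^ 2) * (phiE M - phiT M) := by
  have h1 : ∀ p, En (gr (mhi M V s ρ) p) ≤ ∑ l, s l ^ 4 + 512 * hs (gr M p - xt M) +
      (n : ℝ) ^ 2 * (phiE M - phiT M) := by
    intro p
    rw [En_eq_dd]
    have h2 := hs_mhi h hc p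
    have h3 := dd_mono (Nat.cast_nonneg n) (gr_psd (mhi M V s ρ) p) (xt_psd M) (mhi_le h hc p)
    have h4 := mul_le_mul_of_nonneg_left (dd_xt_le M) (sq_nonneg (n : ℝ))
    linarith
  have h2 : ∑ p, En (gr (mhi M V s ρ) p) ≤ ∑ p, (∑ l, s l ^ 4 + 512 * hs (gr M p - xt M) +
      (n : ℝ) ^ 2 * (phiE M - phiT M)) := sum_le_sum fun p _ => h1 p
  have h3 := mul_le_mul_of_nonneg_left h2 (a := (cn P)⁻¹) (by positivity)
  have h4 : (cn P)⁻¹ * ∑ p : P, (∑ l, s l ^ 4 + 512 * hs (gr M p - xt M) +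
      (n : ℝ) ^ 2 * (phiE M - phiT M)) = ∑ l, s l ^ 4 +
      512 * ((cn P)⁻¹ * ∑ p : P, hs (gr M p - xt M)) + (n : ℝ) ^ 2 * (phiE M - phiT M) := by
    rw [sum_add_distrib, sum_add_distrib, mul_add, mul_add, sum_const, sum_const, nsmul_eq_mul,
      nsmul_eq_mul, Finset.card_univ, cn_inv_mul, cn_inv_mul, ← mul_sum]
    ring
  rw [h4] at h3
  have h5 := var_le M
  unfold phiE at h3 ⊢
  unfold phiE at h5
  nlinarith

/-- lower bound by the labels -/
theorem phiT_ge (h : Sing M V s) (Z : P → Matrix α (Q × β) ℝ) :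
    4 * ∑ l, s l ^ 3 * ∑ p, ((ul M V s p)ᵀ * Z p * V) l l - 3 * ∑ l, s l ^ 4 ≤ phiT Z := by
  have h1 : hs (Vᵀ * xt Z * V) ≤ phiT Z := hs_VV_le h.iso _
  have h2 : ∑ l, ((Vᵀ * xt Z * V) l l) ^ 2 ≤ hs (Vᵀ * xt Z * V) := by
    unfold hs
    refine sum_le_sum fun l _ => ?_
    exact single_le_sum (f := fun j => (Vᵀ * xt Z * V) l j ^ 2) (fun j _ => sq_nonneg _)
      (mem_univ l)
  have h3 : ∀ l, (Vᵀ * xt Z * V) l l = ∑ p, ∑ x, ((Z p * V) x l) ^ 2 := by
    intro l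
    have : Vᵀ * xt Z * V = ∑ p, (Z p * V)ᵀ * (Z p * V) := by
      unfold xt
      rw [Matrix.mul_sum, Matrix.sum_mul]
      refine sum_congr rfl fun p _ => ?_
      rw [transpose_mul]
      simp only [Matrix.mul_assoc]
    rw [this, Matrix.sum_apply]
    refine sum_congr rfl fun p _ => ?_
    rw [Matrix.mul_apply]
    refine sum_congr rfl fun x _ => ?_
    rw [Matrix.transpose_apply, sq]
  have h4 : ∀ l, ∑ p, ∑ x, (ul M V s p x l) ^ 2 = 1 := by
    intro l
    have := congrFun (congrFun (sum_ul h) l) l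
    rw [Matrix.sum_apply, Matrix.one_apply_eq] at this
    rw [← this]
    refine sum_congr rfl fun p _ => ?_
    rw [Matrix.mul_apply]
    refine sum_congr rfl fun x _ => ?_
    rw [Matrix.transpose_apply, sq]
  have h5 : ∀ l, (∑ p, ((ul M V s p)ᵀ * Z p * V) l l) ^ 2 ≤ (Vᵀ * xt Z * V) l l := by
    intro l
    have e : ∑ p, ((ul M V s p)ᵀ * Z p * V) l l =
        ∑ y : P × α, ul M V s y.1 y.2 l * (Z y.1 * V) y.2 l := by
      rw [Fintype.sum_prod_type]
      refine sum_congr rfl fun p _ => ?_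
      rw [Matrix.mul_assoc, Matrix.mul_apply]
      rfl
    rw [e]
    refine (sum_mul_sq_le_sq_mul_sq univ _ _).trans (le_of_eq ?_)
    rw [Fintype.sum_prod_type, Fintype.sum_prod_type, h4, h3, one_mul]
  have h6 : ∀ l, 4 * (s l ^ 3 * ∑ p, ((ul M V s p)ᵀ * Z p * V) l l) - 3 * s l ^ 4 ≤
      ((Vᵀ * xt Z * V) l l) ^ 2 := by
    intro l
    have h7 := h5 l
    set c := ∑ p, ((ul M V s p)ᵀ * Z p * V) l l
    have h8 : (c ^ 2) ^ 2 ≤ ((Vᵀ * xt Z * V) l l) ^ 2 := pow_le_pow_left₀ (sq_nonneg c) h7 2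
    have h9 : 0 ≤ c ^ 4 - 4 * (s l ^ 3 * c) + 3 * s l ^ 4 := by
      have : c ^ 4 - 4 * (s l ^ 3 * c) + 3 * s l ^ 4 =
          (c - s l) ^ 2 * ((c + s l) ^ 2 + 2 * s l ^ 2) := by ring
      rw [this]
      positivity
    nlinarith
  have h7 := sum_le_sum fun l (_ : l ∈ univ) => h6 l
  rw [sum_sub_distrib, ← mul_sum, ← mul_sum] at h7
  linarith

theorem phiT_le_phiE [Nonempty P] (Z : P → Matrix α (Q × β) ℝ) : phiT Z ≤ phiE Z := by
  have := gam_nonneg Z
  linarith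

theorem lab_M (h : Sing M V s) :
    ∑ l, s l ^ 3 * ∑ p, ((ul M V s p)ᵀ * M p * V) l l = ∑ l, s l ^ 4 := by
  refine sum_congr rfl fun l _ => ?_
  have h1 : ∑ p, (ul M V s p)ᵀ * M p * V = diagonal s := by
    have : ∀ p, (ul M V s p)ᵀ * M p * V = (ul M V s p)ᵀ * ul M V s p * diagonal s := by
      intro p
      rw [Matrix.mul_assoc, ← ul_S h.pos, Matrix.mul_assoc]
    simp only [this]
    rw [← Matrix.sum_mul, sum_ul h, Matrix.one_mul]
  rw [← Matrix.sum_apply, h1, diagonal_apply_eq]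
  ring

theorem lab_mhi [Nonempty P] (h : Sing M V s) (hc : Cls s ρ n) :
    ∑ l, s l ^ 4 - 8 * (phiE M - phiT M) ≤
      ∑ l, s l ^ 3 * ∑ p, ((ul M V s p)ᵀ * mhi M V s ρ p * V) l l := by
  have h0 : cn P ≠ 0 := by
    have := Fintype.card_pos (α := P)
    positivity
  have h1 : ∀ p l, ((ul M V s p)ᵀ * mhi M V s ρ p * V) l l =
      (cn P)⁻¹ * ((gg M V s p * ((2 : ℝ) • hh M V s ρ p)) l l * s l) := by
    intro p l
    have : (ul M V s p)ᵀ * mhi M V s ρ p * V =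
        (cn P)⁻¹ • (gg M V s p * ((2 : ℝ) • hh M V s ρ p) * diagonal s) := by
      unfold mhi al gg
      rw [Matrix.smul_mul (cn P), Matrix.smul_mul (cn P), smul_smul, inv_mul_cancel₀ h0,
        one_smul]
      calc (ul M V s p)ᵀ * (ul M V s p * ((2 : ℝ) • hh M V s ρ p) * diagonal s * Vᵀ) * V
          = (ul M V s p)ᵀ * (ul M V s p * ((2 : ℝ) • hh M V s ρ p) * diagonal s) * (Vᵀ * V) := by
            simp only [Matrix.mul_assoc]
        _ = _ := by rw [h.iso, Matrix.mul_one]; simp only [Matrix.mul_assoc]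
    rw [this, Matrix.smul_apply, Matrix.mul_diagonal, smul_eq_mul]
  have h2 : ∑ l, s l ^ 3 * ∑ p, ((ul M V s p)ᵀ * mhi M V s ρ p * V) l l =
      (cn P)⁻¹ * ∑ p, ∑ l, s l ^ 4 * (gg M V s p * ((2 : ℝ) • hh M V s ρ p)) l l := by
    simp only [h1, ← mul_sum]
    rw [sum_comm, mul_sum]
    refine sum_congr rfl fun l _ => ?_
    rw [← sum_mul, ← mul_sum]
    ring
  have h3 : ∀ p : P, ∑ l, s l ^ 4 * (1 + (gg M V s p - 1) l l / 2) -
      8 * hs (gr M p - xt M) ≤
      ∑ l, s l ^ 4 * (gg M V s p * ((2 : ℝ) • hh M V s ρ p)) l l := by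
    intro p
    have h4 := diag_gc_ge (gg_psd (M := M) (V := V) (s := s) p) hc.nn hc.lo hc.hi (hh_rsv p)
    have h5 := hs_sc_gg h p
    linarith
  have h4 := mul_le_mul_of_nonneg_left (sum_le_sum fun p (_ : p ∈ univ) => h3 p)
    (a := (cn P)⁻¹) (by positivity)
  rw [← h2, sum_sub_distrib, mul_sub, ← mul_sum] at h4
  have h5 : (cn P)⁻¹ * ∑ p : P, ∑ l, s l ^ 4 * (1 + (gg M V s p - 1) l l / 2) =
      ∑ l, s l ^ 4 := by
    rw [sum_comm, mul_sum]
    refine sum_congr rfl fun l _ => ?_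
    rw [← mul_sum, sum_add_distrib, ← sum_div]
    have h6 : ∑ p : P, (gg M V s p - 1) l l = 0 := by
      have h7 := congrFun (congrFun (sum_gg h) l) l
      rw [Matrix.sum_apply, Matrix.smul_apply, Matrix.one_apply_eq, smul_eq_mul, mul_one] at h7
      simp only [Matrix.sub_apply, sum_sub_distrib, h7, Matrix.one_apply_eq, sum_const,
        nsmul_eq_mul, Finset.card_univ]
      unfold cn
      ring
    rw [h6, sum_const, nsmul_eq_mul, Finset.card_univ]
    field_simp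
    ring
  rw [h5] at h4
  have h6 := var_le M
  nlinarith

/-- the segment from the high part to the whole family -/
def seg (A B : P → Matrix α (Q × β) ℝ) (z : ℝ) (p : P) : Matrix α (Q × β) ℝ := A p + z • B p

theorem phiE_seg_ge [Nonempty P] (h : Sing M V s) (hc : Cls s ρ n) {z : ℝ} (h0 : 0 ≤ z)
    (h1 : z ≤ 1) : ∑ l, s l ^ 4 - 32 * (phiE M - phiT M) ≤
      phiE (seg (mhi M V s ρ) (fun p => M p - mhi M V s ρ p) z) := by
  refine le_trans ?_ (phiT_le_phiE _)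
  refine le_trans ?_ (phiT_ge h _)
  have e : ∑ l, s l ^ 3 * ∑ p, ((ul M V s p)ᵀ *
      seg (mhi M V s ρ) (fun p => M p - mhi M V s ρ p) z p * V) l l =
      (1 - z) * ∑ l, s l ^ 3 * ∑ p, ((ul M V s p)ᵀ * mhi M V s ρ p * V) l l +
      z * ∑ l, s l ^ 3 * ∑ p, ((ul M V s p)ᵀ * M p * V) l l := by
    rw [mul_sum, mul_sum, ← sum_add_distrib]
    refine sum_congr rfl fun l _ => ?_
    have : ∀ p, ((ul M V s p)ᵀ * seg (mhi M V s ρ) (fun p => M p - mhi M V s ρ p) z p * V) l l =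
        (1 - z) * ((ul M V s p)ᵀ * mhi M V s ρ p * V) l l +
          z * ((ul M V s p)ᵀ * M p * V) l l := by
      intro p
      unfold seg
      rw [Matrix.mul_add, Matrix.add_mul, Matrix.mul_smul, Matrix.smul_mul, Matrix.mul_sub,
        Matrix.sub_mul, Matrix.add_apply, Matrix.smul_apply, Matrix.sub_apply, smul_eq_mul]
      ring
    simp only [this, sum_add_distrib, ← mul_sum]
    ring
  rw [e, lab_M h]
  have h2 := mul_le_mul_of_nonneg_left (lab_mhi h hc) (a := 1 - z) (by linarith)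
  have h3 := gam_nonneg M
  nlinarith

theorem gr_seg (A B : P → Matrix α (Q × β) ℝ) (z : ℝ) (p : P) :
    gr (seg A B z) p = gr A p + z • (cn P • ((A p)ᵀ * B p + (B p)ᵀ * A p)) + z ^ 2 • gr B p := by
  unfold gr seg
  rw [transpose_add, transpose_smul, Matrix.add_mul, Matrix.mul_add, Matrix.mul_add,
    Matrix.smul_mul, Matrix.smul_mul, Matrix.mul_smul, Matrix.mul_smul]
  simp only [smul_add, smul_smul]
  rw [mul_comm z (cn P), mul_comm (z ^ 2) (cn P), sq]
  abel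

theorem phiE_four (A B : P → Matrix α (Q × β) ℝ) :
    24 / 256 * phiE B = phiE (seg A B 0) - 4 * phiE (seg A B (1 / 4)) +
      6 * phiE (seg A B (1 / 2)) - 4 * phiE (seg A B (3 / 4)) + phiE (seg A B 1) := by
  unfold phiE
  simp only [gr_seg]
  have h1 : ∀ p, 24 / 256 * En (gr B p) = _ := fun p =>
    En_four (gr A p) (cn P • ((A p)ᵀ * B p + (B p)ᵀ * A p)) (gr B p)
  have h2 := sum_congr rfl fun p (_ : p ∈ univ) => h1 p
  rw [← mul_sum] at h2
  rw [mul_left_comm, h2]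
  simp only [sum_add_distrib, sum_sub_distrib, ← mul_sum]
  ring

theorem phiE_half (A B : P → Matrix α (Q × β) ℝ) :
    phiE (seg A B (1 / 2)) ≤ (phiE (seg A B 0) + phiE (seg A B 1)) / 2 := by
  unfold phiE
  have h1 : ∀ p, En (gr (seg A B (1 / 2)) p) ≤
      (En (gr (seg A B 0) p) + En (gr (seg A B 1) p)) / 2 := by
    intro p
    have e1 : (1 / 2 : ℝ) • (gr (seg A B 0) p + gr (seg A B 1) p) - gr (seg A B (1 / 2)) p =
        (1 / 4 : ℝ) • gr B p := by
      rw [gr_seg, gr_seg, gr_seg]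
      ext i j
      simp only [Matrix.smul_apply, Matrix.add_apply, Matrix.sub_apply, smul_eq_mul]
      ring
    have h2 : ((1 / 2 : ℝ) • (gr (seg A B 0) p + gr (seg A B 1) p) -
        gr (seg A B (1 / 2)) p).PosSemidef := by
      rw [e1]
      exact psd_smul (gr_psd B p) (by norm_num)
    refine (En_mono (gr_psd _ p) h2).trans ?_
    have h3 := En_nonneg (gr (seg A B 0) p - gr (seg A B 1) p)
    rw [En_sub] at h3
    rw [En_smul, En_add]
    linarith
  have h2 := sum_le_sum fun p (_ : p ∈ univ) => h1 p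
  rw [← sum_div, sum_add_distrib] at h2
  have h3 := mul_le_mul_of_nonneg_left h2 (a := (cn P)⁻¹) (by positivity)
  linarith

/-- (I), given the top singular vectors -/
theorem core [Nonempty P] (h : Sing M V s) (hc : Cls s ρ n) :
    phiE (fun p => M p - mhi M V s ρ p) ≤
      128 / 3 * ((phiT M - ∑ l, s l ^ 4) + (577 + (n : ℝ) ^ 2) * (phiE M - phiT M)) := by
  have h1 := phiE_four (mhi M V s ρ) (fun p => M p - mhi M V s ρ p)
  have h2 := phiE_half (mhi M V s ρ) (fun p => M p - mhi M V s ρ p)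
  have h3 := phiE_seg_ge h hc (z := 1 / 4) (by norm_num) (by norm_num)
  have h4 := phiE_seg_ge h hc (z := 3 / 4) (by norm_num) (by norm_num)
  have e0 : seg (mhi M V s ρ) (fun p => M p - mhi M V s ρ p) 0 = mhi M V s ρ := by
    funext p
    unfold seg
    rw [zero_smul, add_zero]
  have e1 : seg (mhi M V s ρ) (fun p => M p - mhi M V s ρ p) 1 = M := by
    funext p
    unfold seg
    rw [one_smul, add_sub_cancel]
  rw [e0, e1] at h1 h2
  have h5 := phiE_mhi h hc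
  have h6 := gam_nonneg M
  nlinarith

end

end

end Vale.Agent.P141.H385
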