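import Vale.Agent.P141.H385.Mat

/-!
# P141, line (S), item (I): the cut of one Gram matrix

`G` is the (normalised) Gram matrix of the labels on one cell, `ρ` the dyadic class of a label,
`B = bd ρ G` the class-diagonal part and `2 (1 + B)⁻¹` the cut.
-/

namespace Vale.Agent.P141.H385

open Finset Matrix

noncomputable section

variable {L : Type*} [Fintype L] [DecidableEq L]

/-- class-diagonal part -/
def bd (ρ : L → ℝ) (G : Matrix L L ℝ) : Matrix L L ℝ :=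
  fun l l' => if ρ l = ρ l' then G l l' else 0

/-- part of a vector in one class -/
def msk (ρ : L → ℝ) (r : ℝ) (x : L → ℝ) : L → ℝ := fun l => if ρ l = r then x l else 0

theorem bd_transpose (ρ : L → ℝ) {G : Matrix L L ℝ} (h : Gᵀ = G) : (bd ρ G)ᵀ = bd ρ G := by
  ext l l'
  have h1 : G l' l = G l l' := by
    conv_rhs => rw [← h]
    rfl
  simp only [Matrix.transpose_apply, bd]
  by_cases h2 : ρ l = ρ l'
  · rw [if_pos h2, if_pos h2.symm, h1]
  · rw [if_neg h2, if_neg (fun h => h2 h.symm)]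

theorem sum_msk (ρ : L → ℝ) (x : L → ℝ) : ∑ r ∈ univ.image ρ, msk ρ r x = x := by
  ext l
  simp only [Finset.sum_apply, msk]
  rw [Finset.sum_ite_eq]
  simp

theorem qf_bd (ρ : L → ℝ) (G : Matrix L L ℝ) (x : L → ℝ) :
    x ⬝ᵥ bd ρ G *ᵥ x = ∑ r ∈ univ.image ρ, msk ρ r x ⬝ᵥ G *ᵥ msk ρ r x := by
  simp only [dotProduct, mulVec, bd, msk]
  rw [sum_comm]
  refine sum_congr rfl fun l _ => ?_
  simp only [ite_mul, zero_mul]
  rw [Finset.sum_ite_eq, if_pos (mem_image_of_mem _ (mem_univ l))]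
  congr 1
  refine sum_congr rfl fun l' _ => ?_
  by_cases h : ρ l = ρ l'
  · simp [h]
  · rw [if_neg h, if_neg (fun h' => h h'.symm)]; simp

theorem bd_psd (ρ : L → ℝ) {G : Matrix L L ℝ} (h : G.PosSemidef) : (bd ρ G).PosSemidef := by
  refine psd_of_qf (bd_transpose ρ (psd_symm h)) fun x => ?_
  rw [qf_bd]
  exact sum_nonneg fun r _ => qf_nonneg h _

theorem le_bd (ρ : L → ℝ) {G : Matrix L L ℝ} (h : G.PosSemidef) {n : ℕ}
    (hn : (univ.image ρ).card ≤ n) : ((n : ℝ) • bd ρ G - G).PosSemidef := by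
  refine psd_of_qf ?_ fun x => ?_
  · rw [transpose_sub, transpose_smul, bd_transpose ρ (psd_symm h), psd_symm h]
  rw [sub_mulVec, dotProduct_sub, smul_mulVec, dotProduct_smul, smul_eq_mul, qf_bd]
  have h1 := qf_sum_le h (univ.image ρ) (fun r => msk ρ r x)
  rw [sum_msk] at h1
  have h2 : (0 : ℝ) ≤ ∑ r ∈ univ.image ρ, msk ρ r x ⬝ᵥ G *ᵥ msk ρ r x :=
    sum_nonneg fun r _ => qf_nonneg h _
  have h3 : ((univ.image ρ).card : ℝ) ≤ n := by exact_mod_cast hn
  have h4 := mul_le_mul_of_nonneg_right h3 h2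
  linarith

/-- resolvent of a positive semidefinite matrix -/
structure Rsv (B H : Matrix L L ℝ) : Prop where
  symm : Hᵀ = H
  psd : H.PosSemidef
  bh : B * H = 1 - H
  hb : H * B = 1 - H

theorem rsv_inv {B : Matrix L L ℝ} (hB : B.PosSemidef) : Rsv B ((1 + B)⁻¹) := by
  have h1 : (1 + B).PosDef := PosDef.one.add_posSemidef hB
  have h2 : IsUnit (1 + B).det := (Matrix.isUnit_iff_isUnit_det _).1 h1.isUnit
  have h3 : (1 + B) * (1 + B)⁻¹ = 1 := Matrix.mul_nonsing_inv _ h2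
  have h4 : (1 + B)⁻¹ * (1 + B) = 1 := Matrix.nonsing_inv_mul _ h2
  have h5 : ((1 + B)⁻¹).PosSemidef := h1.inv.posSemidef
  refine ⟨psd_symm h5, h5, ?_, ?_⟩
  · rw [Matrix.add_mul, Matrix.one_mul] at h3
    exact eq_sub_of_add_eq' h3
  · rw [Matrix.mul_add, Matrix.mul_one] at h4
    exact eq_sub_of_add_eq' h4

namespace Rsv

variable {B H : Matrix L L ℝ}

theorem comm (h : Rsv B H) {R : Matrix L L ℝ} (hR : R * B = B * R) : R * H = H * R := by
  have h1 : H * (1 + B) = 1 := by rw [Matrix.mul_add, Matrix.mul_one, h.hb]; abel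
  have h2 : (1 + B) * H = 1 := by rw [Matrix.add_mul, Matrix.one_mul, h.bh]; abel
  have h3 : R * (1 + B) = (1 + B) * R := by
    rw [Matrix.mul_add, Matrix.add_mul, Matrix.mul_one, Matrix.one_mul, hR]
  calc R * H = (H * (1 + B)) * (R * H) := by rw [h1, Matrix.one_mul]
    _ = H * ((1 + B) * R) * H := by simp only [Matrix.mul_assoc]
    _ = H * (R * (1 + B)) * H := by rw [h3]
    _ = H * R * ((1 + B) * H) := by simp only [Matrix.mul_assoc]
    _ = H * R := by rw [h2, Matrix.mul_one]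

/-- `1 - H` is positive semidefinite -/
theorem one_sub (h : Rsv B H) (hB : B.PosSemidef) : (1 - H).PosSemidef := by
  have h1 : (Hᵀ * (B + Bᵀ * B) * H).PosSemidef := psd_conj (hB.add (psd_sq B)) H
  have h2 : Hᵀ * (B + Bᵀ * B) * H = 1 - H := by
    rw [h.symm, psd_symm hB, Matrix.mul_add, Matrix.add_mul]
    have e1 : H * B * H = (1 - H) * H := by rw [h.hb]
    have e2 : H * (B * B) * H = (1 - H) * (1 - H) := by
      rw [← Matrix.mul_assoc, h.hb, Matrix.mul_assoc, h.bh]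
    rw [e1, e2]
    noncomm_ring
  rwa [h2] at h1

/-- `H` is a contraction -/
theorem contr (h : Rsv B H) (hB : B.PosSemidef) :
    ((1 : ℝ) • (1 : Matrix L L ℝ) - H * Hᵀ).PosSemidef := by
  have h1 : (Hᵀ * (B + B + Bᵀ * B) * H).PosSemidef := psd_conj ((hB.add hB).add (psd_sq B)) H
  have h2 : Hᵀ * (B + B + Bᵀ * B) * H = (1 : ℝ) • (1 : Matrix L L ℝ) - H * Hᵀ := by
    rw [h.symm, psd_symm hB, Matrix.mul_add, Matrix.add_mul, Matrix.mul_add, Matrix.add_mul]
    have e1 : H * B * H = (1 - H) * H := by rw [h.hb]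
    have e2 : H * (B * B) * H = (1 - H) * (1 - H) := by
      rw [← Matrix.mul_assoc, h.hb, Matrix.mul_assoc, h.bh]
    rw [e1, e2, one_smul]
    noncomm_ring
  rwa [h2] at h1

theorem contr2 (h : Rsv B H) (hB : B.PosSemidef) :
    ((4 : ℝ) • (1 : Matrix L L ℝ) - ((2 : ℝ) • H) * ((2 : ℝ) • H)ᵀ).PosSemidef := by
  have h1 := psd_smul (h.contr hB) (c := 4) (by norm_num)
  have h2 : (4 : ℝ) • ((1 : ℝ) • (1 : Matrix L L ℝ) - H * Hᵀ) =
      (4 : ℝ) • (1 : Matrix L L ℝ) - ((2 : ℝ) • H) * ((2 : ℝ) • H)ᵀ := by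
    rw [transpose_smul, Matrix.smul_mul, Matrix.mul_smul, smul_smul, one_smul, smul_sub]
    norm_num
  rwa [h2] at h1

/-- `1 - 2 H` is a contraction -/
theorem contr3 (h : Rsv B H) (hB : B.PosSemidef) :
    ((1 : ℝ) • (1 : Matrix L L ℝ) - (1 - (2 : ℝ) • H) * (1 - (2 : ℝ) • H)ᵀ).PosSemidef := by
  have h1 := psd_smul (psd_conj hB H) (c := 4) (by norm_num)
  have h2 : (4 : ℝ) • (Hᵀ * B * H) =
      (1 : ℝ) • (1 : Matrix L L ℝ) - (1 - (2 : ℝ) • H) * (1 - (2 : ℝ) • H)ᵀ := by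
    rw [transpose_sub, transpose_one, transpose_smul, h.symm, h.hb, one_smul]
    simp only [Matrix.sub_mul, Matrix.mul_sub, Matrix.one_mul, Matrix.mul_one, Matrix.smul_mul,
      Matrix.mul_smul, smul_sub, smul_smul]
    norm_num
    have : (4 : ℝ) • H = (2 : ℝ) • H + (2 : ℝ) • H := by rw [← add_smul]; norm_num
    rw [this]
    abel
  rwa [h2] at h1

theorem J_eq (h : Rsv B H) : 1 - (2 : ℝ) • H * B * ((2 : ℝ) • H) =
    (1 - (2 : ℝ) • H) * (1 - (2 : ℝ) • H) := by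
  rw [Matrix.smul_mul, h.hb]
  simp only [Matrix.sub_mul, Matrix.mul_sub, Matrix.one_mul, Matrix.mul_one, Matrix.smul_mul,
      Matrix.mul_smul, smul_sub, smul_smul]
  norm_num
  have : (4 : ℝ) • H = (2 : ℝ) • H + (2 : ℝ) • H := by rw [← add_smul]; norm_num
  rw [this]
  abel

theorem J_eq2 (h : Rsv B H) : (1 - (2 : ℝ) • H) = (B - 1) * H := by
  rw [Matrix.sub_mul, h.bh, Matrix.one_mul, two_smul]
  abel

theorem bc_eq (h : Rsv B H) : (2 : ℝ) • (B * ((2 : ℝ) • H)) =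
    (2 : ℝ) • (1 : Matrix L L ℝ) + (B - 1) - (B - 1) * H * (B - 1) := by
  have h1 : (B - 1) * H * (B - 1) = B - 1 - (2 : ℝ) • (1 - H) + (2 : ℝ) • H := by
    rw [← h.J_eq2, Matrix.mul_sub, Matrix.sub_mul, Matrix.one_mul, Matrix.mul_one,
      Matrix.smul_mul, h.hb]
    abel
  rw [h1, Matrix.mul_smul, h.bh]
  simp only [two_smul]
  abel

end Rsv

end

end Vale.Agent.P141.H385
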