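import Vale.Agent.P141.H385.Cut

/-!
# P141, line (S), item (I): four lemmas on the cut of one Gram matrix
-/

namespace Vale.Agent.P141.H385

open Finset Matrix

noncomputable section

variable {L : Type*} [Fintype L] [DecidableEq L]

/-- two-sided diagonal scaling -/
def sc (s : L → ℝ) (M : Matrix L L ℝ) : Matrix L L ℝ := diagonal s * M * diagonal s

theorem sc_apply (s : L → ℝ) (M : Matrix L L ℝ) (i j : L) : sc s M i j = s i * M i j * s j := by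
  rw [sc, Matrix.mul_diagonal, Matrix.diagonal_mul]

theorem sc_sub (s : L → ℝ) (M N : Matrix L L ℝ) : sc s (M - N) = sc s M - sc s N := by
  simp only [sc, Matrix.mul_sub, Matrix.sub_mul]

theorem hs_sc_mono {r s : L → ℝ} (h0 : ∀ i, 0 ≤ r i) (h : ∀ i, r i ≤ s i) (M : Matrix L L ℝ) :
    hs (sc r M) ≤ hs (sc s M) := by
  unfold hs
  refine sum_le_sum fun i _ => sum_le_sum fun j _ => ?_
  rw [sc_apply, sc_apply]
  have h1 : r i * r j ≤ s i * s j := mul_le_mul (h i) (h j) (h0 j) (le_trans (h0 i) (h i))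
  have h2 : (r i * r j) ^ 2 ≤ (s i * s j) ^ 2 := pow_le_pow_left₀ (mul_nonneg (h0 i) (h0 j)) h1 2
  have h3 := mul_le_mul_of_nonneg_right h2 (sq_nonneg (M i j))
  calc (r i * M i j * r j) ^ 2 = (r i * r j) ^ 2 * M i j ^ 2 := by ring
    _ ≤ (s i * s j) ^ 2 * M i j ^ 2 := h3
    _ = (s i * M i j * s j) ^ 2 := by ring

theorem hs_sc_two {ρ s : L → ℝ} (h0 : ∀ i, 0 ≤ s i) (h : ∀ i, s i ≤ 2 * ρ i)
    (M : Matrix L L ℝ) : hs (sc s M) ≤ 16 * hs (sc ρ M) := by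
  refine (hs_sc_mono h0 h M).trans (le_of_eq ?_)
  unfold hs
  rw [mul_sum]
  refine sum_congr rfl fun i _ => ?_
  rw [mul_sum]
  refine sum_congr rfl fun j _ => ?_
  rw [sc_apply, sc_apply]
  ring

theorem hs_split (ρ : L → ℝ) (G : Matrix L L ℝ) :
    hs (sc ρ (G - 1)) = hs (sc ρ (G - bd ρ G)) + hs (sc ρ (bd ρ G - 1)) := by
  unfold hs
  rw [← sum_add_distrib]
  refine sum_congr rfl fun i _ => ?_
  rw [← sum_add_distrib]
  refine sum_congr rfl fun j _ => ?_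
  rw [sc_apply, sc_apply, sc_apply, Matrix.sub_apply, Matrix.sub_apply, Matrix.sub_apply, bd]
  by_cases h : ρ i = ρ j
  · rw [if_pos h]; ring
  · have h1 : (1 : Matrix L L ℝ) i j = 0 := Matrix.one_apply_ne (fun h' => h (by rw [h']))
    rw [if_neg h, h1]; ring

theorem comm_bd (ρ : L → ℝ) (G : Matrix L L ℝ) :
    diagonal ρ * bd ρ G = bd ρ G * diagonal ρ := by
  ext i j
  rw [Matrix.diagonal_mul, Matrix.mul_diagonal, bd]
  by_cases h : ρ i = ρ j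
  · rw [if_pos h, h]; ring
  · rw [if_neg h]; ring

variable {ρ s : L → ℝ} {G H : Matrix L L ℝ}

theorem H_off (h : Rsv (bd ρ G) H) {i j : L} (hij : ρ i ≠ ρ j) : H i j = 0 := by
  have h1 := congrFun (congrFun (h.comm (comm_bd ρ G)) i) j
  rw [Matrix.diagonal_mul, Matrix.mul_diagonal] at h1
  have h2 : (ρ i - ρ j) * H i j = 0 := by linarith
  rcases mul_eq_zero.1 h2 with h3 | h3
  · exact absurd (sub_eq_zero.1 h3) hij
  · exact h3

/-- (A1) the potential of the cut labels -/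
theorem cut_le (hG : G.PosSemidef) {n : ℕ} (hn : (univ.image ρ).card ≤ n)
    (h : Rsv (bd ρ G) H) :
    ((n : ℝ) • (1 : Matrix L L ℝ) - (2 : ℝ) • H * G * ((2 : ℝ) • H)).PosSemidef := by
  have h1 : ((n : ℝ) • ((1 - (2 : ℝ) • H)ᵀ * (1 - (2 : ℝ) • H))).PosSemidef :=
    psd_smul (psd_sq _) (Nat.cast_nonneg n)
  have h2 := psd_conj (le_bd ρ hG hn) ((2 : ℝ) • H)
  have h3 := h1.add h2
  have h4 : (n : ℝ) • ((1 - (2 : ℝ) • H)ᵀ * (1 - (2 : ℝ) • H)) +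
      ((2 : ℝ) • H)ᵀ * ((n : ℝ) • bd ρ G - G) * ((2 : ℝ) • H) =
      (n : ℝ) • (1 : Matrix L L ℝ) - (2 : ℝ) • H * G * ((2 : ℝ) • H) := by
    rw [transpose_sub, transpose_one, transpose_smul, h.symm, ← h.J_eq, Matrix.mul_sub,
      Matrix.sub_mul, smul_sub, Matrix.mul_smul _ (n : ℝ), Matrix.smul_mul (n : ℝ)]
    abel
  rwa [h4] at h3

theorem cut_sub (h : Rsv (bd ρ G) H) :
    (2 : ℝ) • H * G * ((2 : ℝ) • H) - 1 =
      (2 : ℝ) • H * (G - bd ρ G) * ((2 : ℝ) • H) - (1 - (2 : ℝ) • H) * (1 - (2 : ℝ) • H) := by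
  rw [← h.J_eq, Matrix.mul_sub, Matrix.sub_mul]
  abel

/-- (A2) -/
theorem hs_cut_le (hG : G.PosSemidef) (h0 : ∀ l, 0 ≤ ρ l) (h1 : ∀ l, ρ l ≤ s l)
    (h2 : ∀ l, s l ≤ 2 * ρ l) (h : Rsv (bd ρ G) H) :
    hs (sc s ((2 : ℝ) • H * G * ((2 : ℝ) • H) - 1)) ≤ 512 * hs (sc s (G - 1)) := by
  have hB := bd_psd ρ hG
  have hRH : diagonal ρ * H = H * diagonal ρ := h.comm (comm_bd ρ G)
  have hRC : diagonal ρ * ((2 : ℝ) • H) = ((2 : ℝ) • H) * diagonal ρ := by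
    rw [Matrix.mul_smul, Matrix.smul_mul, hRH]
  have hRJ : diagonal ρ * (1 - (2 : ℝ) • H) = (1 - (2 : ℝ) • H) * diagonal ρ := by
    rw [Matrix.mul_sub, Matrix.sub_mul, hRC, Matrix.mul_one, Matrix.one_mul]
  have e1 : sc ρ ((2 : ℝ) • H * (G - bd ρ G) * ((2 : ℝ) • H)) =
      (2 : ℝ) • H * (sc ρ (G - bd ρ G) * ((2 : ℝ) • H)) := by
    unfold sc
    calc diagonal ρ * ((2 : ℝ) • H * (G - bd ρ G) * ((2 : ℝ) • H)) * diagonal ρ
        = (diagonal ρ * ((2 : ℝ) • H)) * (G - bd ρ G) * (((2 : ℝ) • H) * diagonal ρ) := by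
          simp only [Matrix.mul_assoc]
      _ = (((2 : ℝ) • H) * diagonal ρ) * (G - bd ρ G) * (diagonal ρ * ((2 : ℝ) • H)) := by
          rw [hRC]
      _ = _ := by simp only [Matrix.mul_assoc]
  have e2 : sc ρ ((1 - (2 : ℝ) • H) * (1 - (2 : ℝ) • H)) =
      sc ρ (bd ρ G - 1) * H * (1 - (2 : ℝ) • H) := by
    unfold sc
    calc diagonal ρ * ((1 - (2 : ℝ) • H) * (1 - (2 : ℝ) • H)) * diagonal ρ
        = diagonal ρ * ((bd ρ G - 1) * H * (1 - (2 : ℝ) • H)) * diagonal ρ := by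
          congr 2
          rw [← h.J_eq2]
      _ = diagonal ρ * (bd ρ G - 1) * (H * ((1 - (2 : ℝ) • H) * diagonal ρ)) := by
          simp only [Matrix.mul_assoc]
      _ = diagonal ρ * (bd ρ G - 1) * ((H * diagonal ρ) * (1 - (2 : ℝ) • H)) := by
          rw [← hRJ, Matrix.mul_assoc H]
      _ = _ := by rw [← hRH]; simp only [Matrix.mul_assoc]
  have c1 : hs ((2 : ℝ) • H * (sc ρ (G - bd ρ G) * ((2 : ℝ) • H))) ≤
      16 * hs (sc ρ (G - bd ρ G)) := by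
    have hC := h.contr2 hB
    have hC' : ((4 : ℝ) • (1 : Matrix L L ℝ) - ((2 : ℝ) • H)ᵀ * ((2 : ℝ) • H)).PosSemidef := by
      have : ((2 : ℝ) • H)ᵀ = (2 : ℝ) • H := by rw [transpose_smul, h.symm]
      rw [this] at hC ⊢
      exact hC
    have c2 := hs_mul_le hC' (sc ρ (G - bd ρ G) * ((2 : ℝ) • H))
    have c3 := hs_mul_le' hC (sc ρ (G - bd ρ G))
    linarith
  have c4 : hs (sc ρ (bd ρ G - 1) * H * (1 - (2 : ℝ) • H)) ≤ hs (sc ρ (bd ρ G - 1)) := by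
    have c5 := hs_mul_le' (h.contr3 hB) (sc ρ (bd ρ G - 1) * H)
    have c6 := hs_mul_le' (h.contr hB) (sc ρ (bd ρ G - 1))
    linarith
  have c7 : hs (sc ρ ((2 : ℝ) • H * G * ((2 : ℝ) • H) - 1)) ≤ 32 * hs (sc ρ (G - 1)) := by
    rw [cut_sub h, sc_sub, e1, e2, sub_eq_add_neg]
    refine (hs_add_le _ _).trans ?_
    rw [hs_neg, hs_split]
    have := hs_nonneg (sc ρ (bd ρ G - 1))
    linarith
  have c8 := hs_sc_two (ρ := ρ) (s := s) (fun l => (h0 l).trans (h1 l)) h2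
    ((2 : ℝ) • H * G * ((2 : ℝ) • H) - 1)
  have c9 := hs_sc_mono h0 h1 (G - 1)
  linarith

/-- (A3) -/
theorem diag_cut_le (h : Rsv (bd ρ G) H) :
    ∑ l, s l ^ 4 * ((2 : ℝ) • H * G * ((2 : ℝ) • H) - 1) l l ≤ 0 := by
  refine sum_nonpos fun l _ => ?_
  rw [cut_sub h, Matrix.sub_apply]
  have h1 : ((2 : ℝ) • H * (G - bd ρ G) * ((2 : ℝ) • H)) l l = 0 := by
    rw [Matrix.mul_apply]
    refine sum_eq_zero fun k _ => ?_
    by_cases hk : ρ k = ρ l
    · rw [Matrix.mul_apply]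
      have : ∑ j, ((2 : ℝ) • H) l j * (G - bd ρ G) j k = 0 := by
        refine sum_eq_zero fun j _ => ?_
        by_cases hj : ρ l = ρ j
        · have : (G - bd ρ G) j k = 0 := by
            rw [Matrix.sub_apply, bd, if_pos (by rw [← hj, hk]), sub_self]
          rw [this, mul_zero]
        · rw [Matrix.smul_apply, H_off h hj, smul_zero, zero_mul]
      rw [this, zero_mul]
    · rw [Matrix.smul_apply, H_off h hk, smul_zero, mul_zero]
  have h2 : 0 ≤ ((1 - (2 : ℝ) • H) * (1 - (2 : ℝ) • H)) l l := by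
    have h3 := (psd_sq (1 - (2 : ℝ) • H)).diag_nonneg (i := l)
    rwa [transpose_sub, transpose_one, transpose_smul, h.symm] at h3
  rw [h1, zero_sub]
  have h4 : 0 ≤ s l ^ 4 := by positivity
  have := mul_nonneg h4 h2
  linarith

/-- (A4) -/
theorem diag_gc_ge (hG : G.PosSemidef) (h0 : ∀ l, 0 ≤ ρ l) (h1 : ∀ l, ρ l ≤ s l)
    (h2 : ∀ l, s l ≤ 2 * ρ l) (h : Rsv (bd ρ G) H) :
    ∑ l, s l ^ 4 * (1 + (G - 1) l l / 2) - 8 * hs (sc s (G - 1)) ≤
      ∑ l, s l ^ 4 * (G * ((2 : ℝ) • H)) l l := by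
  have hB := bd_psd ρ hG
  have hBs : (bd ρ G - 1)ᵀ = bd ρ G - 1 := by
    rw [transpose_sub, transpose_one, psd_symm hB]
  have e1 : ∀ l, (G * ((2 : ℝ) • H)) l l = (bd ρ G * ((2 : ℝ) • H)) l l := by
    intro l
    rw [Matrix.mul_apply, Matrix.mul_apply]
    refine sum_congr rfl fun j _ => ?_
    by_cases hj : ρ j = ρ l
    · rw [bd, if_pos hj.symm]
    · rw [Matrix.smul_apply, H_off h hj, smul_zero, mul_zero, mul_zero]
  have e2 : ∀ l, (bd ρ G * ((2 : ℝ) • H)) l l =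
      1 + (G - 1) l l / 2 - ((bd ρ G - 1) * H * (bd ρ G - 1)) l l / 2 := by
    intro l
    have := congrFun (congrFun h.bc_eq l) l
    rw [Matrix.smul_apply, Matrix.sub_apply, Matrix.add_apply, Matrix.smul_apply,
      Matrix.one_apply_eq, smul_eq_mul, smul_eq_mul] at this
    have h3 : (bd ρ G - 1) l l = (G - 1) l l := by
      rw [Matrix.sub_apply, Matrix.sub_apply, bd, if_pos rfl]
    rw [h3] at this
    linarith
  have e3 : ∀ l, ((bd ρ G - 1) * H * (bd ρ G - 1)) l l ≤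
      ((bd ρ G - 1) * (bd ρ G - 1)) l l := by
    intro l
    have h3 := (psd_conj (h.one_sub hB) (bd ρ G - 1)).diag_nonneg (i := l)
    have h4 : (bd ρ G - 1)ᵀ * (1 - H) * (bd ρ G - 1) =
        (bd ρ G - 1) * (bd ρ G - 1) - (bd ρ G - 1) * H * (bd ρ G - 1) := by
      rw [hBs, Matrix.mul_sub (bd ρ G - 1) 1 H, Matrix.mul_one,
        Matrix.sub_mul (bd ρ G - 1) ((bd ρ G - 1) * H) (bd ρ G - 1)]
    rw [h4, Matrix.sub_apply] at h3
    linarith
  have e4 : ∑ l, s l ^ 4 * ((bd ρ G - 1) * (bd ρ G - 1)) l l ≤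
      16 * hs (sc ρ (bd ρ G - 1)) := by
    unfold hs
    rw [mul_sum]
    refine sum_le_sum fun l _ => ?_
    rw [Matrix.mul_apply, mul_sum, mul_sum]
    refine sum_le_sum fun j _ => ?_
    have h3 : (bd ρ G - 1) j l = (bd ρ G - 1) l j := by
      conv_rhs => rw [← hBs]
      rfl
    rw [h3, sc_apply]
    by_cases hj : ρ l = ρ j
    · rw [← hj]
      have h4 : s l ^ 4 ≤ (2 * ρ l) ^ 4 :=
        pow_le_pow_left₀ ((h0 l).trans (h1 l)) (h2 l) 4
      have h5 := mul_le_mul_of_nonneg_right h4 (sq_nonneg ((bd ρ G - 1) l j))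
      calc s l ^ 4 * ((bd ρ G - 1) l j * (bd ρ G - 1) l j)
          = s l ^ 4 * (bd ρ G - 1) l j ^ 2 := by ring
        _ ≤ (2 * ρ l) ^ 4 * (bd ρ G - 1) l j ^ 2 := h5
        _ = _ := by ring
    · have h6 : (bd ρ G - 1) l j = 0 := by
        rw [Matrix.sub_apply, bd, if_neg hj,
          Matrix.one_apply_ne (fun h' => hj (by rw [h'])), sub_zero]
      rw [h6]
      simp
  have e5 : hs (sc ρ (bd ρ G - 1)) ≤ hs (sc s (G - 1)) := by
    have h3 := hs_sc_mono h0 h1 (G - 1)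
    have h4 := hs_split ρ G
    have h5 := hs_nonneg (sc ρ (G - bd ρ G))
    linarith
  have e6 : ∑ l, s l ^ 4 * ((bd ρ G - 1) * H * (bd ρ G - 1)) l l ≤
      ∑ l, s l ^ 4 * ((bd ρ G - 1) * (bd ρ G - 1)) l l :=
    sum_le_sum fun l _ => mul_le_mul_of_nonneg_left (e3 l) (by positivity)
  have e7 : ∑ l, s l ^ 4 * (G * ((2 : ℝ) • H)) l l =
      ∑ l, s l ^ 4 * (1 + (G - 1) l l / 2) -
        (∑ l, s l ^ 4 * ((bd ρ G - 1) * H * (bd ρ G - 1)) l l) / 2 := by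
    rw [sum_div, ← sum_sub_distrib]
    refine sum_congr rfl fun l _ => ?_
    rw [e1, e2]
    ring
  rw [e7]
  linarith

end

end Vale.Agent.P141.H385
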