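import Mathlib

/-!
# P141, line (S), item (I): matrices

Hilbert-Schmidt squares, positive semidefinite matrices, quadratic forms of sums.
-/

namespace Vale.Agent.P141.H385

open Finset Matrix

noncomputable section

variable {ι κ μ ν : Type*} [Fintype ι] [Fintype κ] [Fintype μ] [Fintype ν]

/-- Hilbert-Schmidt inner product -/
def ip (M N : Matrix ι κ ℝ) : ℝ := ∑ i, ∑ j, M i j * N i j

/-- Hilbert-Schmidt square -/
def hs (M : Matrix ι κ ℝ) : ℝ := ∑ i, ∑ j, M i j ^ 2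

theorem hs_nonneg (M : Matrix ι κ ℝ) : 0 ≤ hs M :=
  sum_nonneg fun _ _ => sum_nonneg fun _ _ => sq_nonneg _

theorem ip_self (M : Matrix ι κ ℝ) : ip M M = hs M := by
  simp only [ip, hs, sq]

theorem ip_comm (M N : Matrix ι κ ℝ) : ip M N = ip N M := by
  simp only [ip, mul_comm]

theorem ip_add_left (M M' N : Matrix ι κ ℝ) : ip (M + M') N = ip M N + ip M' N := by
  simp only [ip, Matrix.add_apply, add_mul, sum_add_distrib]

theorem ip_add_right (M N N' : Matrix ι κ ℝ) : ip M (N + N') = ip M N + ip M N' := by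
  simp only [ip, Matrix.add_apply, mul_add, sum_add_distrib]

theorem ip_smul_left (c : ℝ) (M N : Matrix ι κ ℝ) : ip (c • M) N = c * ip M N := by
  simp only [ip, Matrix.smul_apply, smul_eq_mul, mul_sum, mul_assoc]

theorem ip_smul_right (c : ℝ) (M N : Matrix ι κ ℝ) : ip M (c • N) = c * ip M N := by
  rw [ip_comm, ip_smul_left, ip_comm]

theorem ip_sub_left (M M' N : Matrix ι κ ℝ) : ip (M - M') N = ip M N - ip M' N := by
  simp only [ip, Matrix.sub_apply, sub_mul, sum_sub_distrib]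

theorem ip_sub_right (M N N' : Matrix ι κ ℝ) : ip M (N - N') = ip M N - ip M N' := by
  simp only [ip, Matrix.sub_apply, mul_sub, sum_sub_distrib]

theorem ip_sum_left {P : Type*} (t : Finset P) (M : P → Matrix ι κ ℝ) (N : Matrix ι κ ℝ) :
    ip (∑ p ∈ t, M p) N = ∑ p ∈ t, ip (M p) N := by
  classical
  induction t using Finset.induction_on with
  | empty => simp [ip]
  | insert a s ha ih => rw [sum_insert ha, sum_insert ha, ip_add_left, ih]

theorem hs_smul (c : ℝ) (M : Matrix ι κ ℝ) : hs (c • M) = c ^ 2 * hs M := by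
  simp only [hs, Matrix.smul_apply, smul_eq_mul, mul_sum, mul_pow]

theorem hs_add (M N : Matrix ι κ ℝ) : hs (M + N) = hs M + 2 * ip M N + hs N := by
  rw [← ip_self, ← ip_self, ← ip_self, ip_add_left, ip_add_right, ip_add_right, ip_comm N M]
  ring

theorem hs_sub (M N : Matrix ι κ ℝ) : hs (M - N) = hs M - 2 * ip M N + hs N := by
  rw [← ip_self, ← ip_self, ← ip_self, ip_sub_left, ip_sub_right, ip_sub_right, ip_comm N M]
  ring

theorem hs_add_le (M N : Matrix ι κ ℝ) : hs (M + N) ≤ 2 * hs M + 2 * hs N := by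
  have h1 := hs_add M N
  have h2 := hs_sub M N
  have h3 := hs_nonneg (M - N)
  linarith

theorem hs_transpose (M : Matrix ι κ ℝ) : hs Mᵀ = hs M := by
  simp only [hs, Matrix.transpose_apply]
  exact sum_comm

theorem hs_neg (M : Matrix ι κ ℝ) : hs (-M) = hs M := by
  simp only [hs, Matrix.neg_apply, neg_sq]

/-! ### quadratic forms -/

theorem qf_nonneg {S : Matrix ι ι ℝ} (h : S.PosSemidef) (x : ι → ℝ) : 0 ≤ x ⬝ᵥ S *ᵥ x := by
  have := h.dotProduct_mulVec_nonneg x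
  simpa using this

theorem psd_of_qf {S : Matrix ι ι ℝ} (hS : Sᵀ = S) (h : ∀ x : ι → ℝ, 0 ≤ x ⬝ᵥ S *ᵥ x) :
    S.PosSemidef := by
  refine PosSemidef.of_dotProduct_mulVec_nonneg ?_ fun x => by simpa using h x
  show Sᴴ = S
  rw [conjTranspose_eq_transpose_of_trivial, hS]

theorem psd_symm {S : Matrix ι ι ℝ} (h : S.PosSemidef) : Sᵀ = S := by
  have := h.isHermitian
  rwa [IsHermitian, conjTranspose_eq_transpose_of_trivial] at this

theorem psd_conj {S : Matrix ι ι ℝ} (h : S.PosSemidef) (B : Matrix ι κ ℝ) :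
    (Bᵀ * S * B).PosSemidef := by
  have := h.conjTranspose_mul_mul_same B
  rwa [conjTranspose_eq_transpose_of_trivial] at this

theorem psd_sq (B : Matrix ι κ ℝ) : (Bᵀ * B).PosSemidef := by
  have := posSemidef_conjTranspose_mul_self B
  rwa [conjTranspose_eq_transpose_of_trivial] at this

theorem psd_smul {S : Matrix ι ι ℝ} (h : S.PosSemidef) {c : ℝ} (hc : 0 ≤ c) :
    (c • S).PosSemidef := by
  refine psd_of_qf (by rw [transpose_smul, psd_symm h]) fun x => ?_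
  rw [smul_mulVec, dotProduct_smul]
  exact mul_nonneg hc (qf_nonneg h x)

/-- the quadratic form of a sum of vectors -/
theorem qf_sum_le {S : Matrix ι ι ℝ} (h : S.PosSemidef) {P : Type*} (t : Finset P)
    (x : P → ι → ℝ) :
    (∑ p ∈ t, x p) ⬝ᵥ S *ᵥ (∑ p ∈ t, x p) ≤ (t.card : ℝ) * ∑ p ∈ t, x p ⬝ᵥ S *ᵥ x p := by
  have hsym : ∀ u v : ι → ℝ, u ⬝ᵥ S *ᵥ v = v ⬝ᵥ S *ᵥ u := by
    intro u v
    rw [dotProduct_mulVec, ← mulVec_transpose, psd_symm h, dotProduct_comm]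
  have h1 : 0 ≤ ∑ p ∈ t, ∑ q ∈ t, (x p - x q) ⬝ᵥ S *ᵥ (x p - x q) :=
    sum_nonneg fun p _ => sum_nonneg fun q _ => qf_nonneg h _
  have h2 : ∀ p q, (x p - x q) ⬝ᵥ S *ᵥ (x p - x q) =
      x p ⬝ᵥ S *ᵥ x p + x q ⬝ᵥ S *ᵥ x q - 2 * (x p ⬝ᵥ S *ᵥ x q) := by
    intro p q
    rw [mulVec_sub, dotProduct_sub, sub_dotProduct, sub_dotProduct, hsym (x q) (x p)]
    ring
  have h3 : ∑ p ∈ t, ∑ q ∈ t, x p ⬝ᵥ S *ᵥ x q =
      (∑ p ∈ t, x p) ⬝ᵥ S *ᵥ (∑ p ∈ t, x p) := by
    rw [sum_dotProduct]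
    refine sum_congr rfl fun p _ => ?_
    rw [mulVec_sum, dotProduct_sum]
  simp only [h2, sum_sub_distrib, sum_add_distrib, sum_const, nsmul_eq_mul, ← mul_sum] at h1
  rw [h3] at h1
  linarith

theorem ip_nonneg {K K' : Matrix ι ι ℝ} (h : K.PosSemidef) (h' : K'.PosSemidef) :
    0 ≤ ip K K' := by
  have h1 := qf_nonneg (h.hadamard h') (fun _ => (1 : ℝ))
  have h2 : (fun _ => (1 : ℝ)) ⬝ᵥ (K ⊙ K') *ᵥ (fun _ => (1 : ℝ)) = ip K K' := by
    simp [dotProduct, mulVec, ip, hadamard]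
  rwa [h2] at h1

theorem hs_mono {K K' : Matrix ι ι ℝ} (h : K.PosSemidef) (h' : (K' - K).PosSemidef) :
    hs K ≤ hs K' := by
  have h1 : K'.PosSemidef := by
    have := h'.add h
    rwa [sub_add_cancel] at this
  have h2 := ip_nonneg h' h1
  have h3 := ip_nonneg h h'
  rw [ip_sub_left] at h2
  rw [ip_sub_right] at h3
  rw [← ip_self, ← ip_self]
  linarith

/-! ### contractions -/

theorem trace_nonneg {S : Matrix ι ι ℝ} (h : S.PosSemidef) : 0 ≤ ∑ i, S i i :=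
  sum_nonneg fun _ _ => h.diag_nonneg

theorem hs_eq_trace (M : Matrix ι κ ℝ) : hs M = ∑ j, (Mᵀ * M) j j := by
  simp only [hs, Matrix.mul_apply, Matrix.transpose_apply, ← sq]
  exact sum_comm

/-- left contraction -/
theorem hs_mul_le [DecidableEq κ] {C : Matrix ι κ ℝ} {c : ℝ}
    (h : (c • (1 : Matrix κ κ ℝ) - Cᵀ * C).PosSemidef) (B : Matrix κ μ ℝ) :
    hs (C * B) ≤ c * hs B := by
  have h1 := trace_nonneg (psd_conj h B)
  have e : Bᵀ * (c • (1 : Matrix κ κ ℝ) - Cᵀ * C) * B =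
      c • (Bᵀ * B) - (C * B)ᵀ * (C * B) := by
    rw [transpose_mul, Matrix.mul_sub, Matrix.sub_mul, Matrix.mul_smul, Matrix.smul_mul,
      Matrix.mul_one]
    simp only [Matrix.mul_assoc]
  rw [e] at h1
  simp only [Matrix.sub_apply, Matrix.smul_apply, smul_eq_mul, sum_sub_distrib, ← mul_sum] at h1
  rw [← hs_eq_trace, ← hs_eq_trace] at h1
  linarith

/-- right contraction -/
theorem hs_mul_le' [DecidableEq κ] {C : Matrix κ ι ℝ} {c : ℝ}
    (h : (c • (1 : Matrix κ κ ℝ) - C * Cᵀ).PosSemidef) (B : Matrix μ κ ℝ) :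
    hs (B * C) ≤ c * hs B := by
  have h1 := hs_mul_le (C := Cᵀ) (c := c) (by rwa [transpose_transpose]) Bᵀ
  rwa [← transpose_mul, hs_transpose, hs_transpose] at h1

/-- orthonormal columns -/
theorem hs_iso [DecidableEq κ] {V : Matrix ι κ ℝ} (h : Vᵀ * V = 1) (Z : Matrix κ κ ℝ) :
    hs (V * Z * Vᵀ) = hs Z := by
  have h1 : ∀ B : Matrix κ ι ℝ, hs (V * B) = hs B := by
    intro B
    rw [hs_eq_trace, hs_eq_trace, transpose_mul, Matrix.mul_assoc, ← Matrix.mul_assoc Vᵀ, h,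
      Matrix.one_mul]
  rw [Matrix.mul_assoc, h1, ← hs_transpose, transpose_mul, transpose_transpose]
  have h2 : ∀ B : Matrix κ κ ℝ, hs (V * B) = hs B := by
    intro B
    rw [hs_eq_trace, hs_eq_trace, transpose_mul, Matrix.mul_assoc, ← Matrix.mul_assoc Vᵀ, h,
      Matrix.one_mul]
  rw [h2, hs_transpose]

end

end Vale.Agent.P141.H385
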